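import Crest.Agent.N49.Po.Lin
import Crest.Agent.N49.To.Bd1

/-!
# Row 49 (helper83): discrete Gaussian laws: total variation, quasi-invariance, exact mixtures
-/

set_option autoImplicit false
set_option linter.unusedSectionVars false

open Matrix MeasureTheory

noncomputable section

namespace Crest.Agent.N49.Po

variable {d : Type} [Fintype d] [DecidableEq d] {M M' : Matrix d d ℝ}

/-- `√(a b)` for two Gaussians -/
theorem gs_mid (M : Matrix d d ℝ) (x y : d → ℝ) :
    gs M (x + y) * gs M (x - y) = (gs M x * gs M y) ^ 2 := by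
  simp only [gs, ← Real.exp_add, sq]
  congr 1
  linear_combination (-Real.pi) * qf_par M x y

theorem abs_sub_le_hell {a b c t : ℝ} (ha : 0 ≤ a) (hb : 0 ≤ b) (h : a * b = c ^ 2)
    (ht : 0 < t) : |a - b| ≤ (a + b - 2 * c) / (2 * t) + t * (a + b) := by
  obtain ⟨u, u0, rfl⟩ : ∃ u, 0 ≤ u ∧ a = u ^ 2 := ⟨√a, Real.sqrt_nonneg _, (Real.sq_sqrt ha).symm⟩
  obtain ⟨v, v0, rfl⟩ : ∃ v, 0 ≤ v ∧ b = v ^ 2 := ⟨√b, Real.sqrt_nonneg _, (Real.sq_sqrt hb).symm⟩
  have hc : c ≤ u * v := by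
    refine (abs_le_of_sq_le_sq' ?_ (mul_nonneg u0 v0)).2
    rw [← h]; exact le_of_eq (by ring)
  have h1 : |u ^ 2 - v ^ 2| * (2 * t) ≤ (u - v) ^ 2 + t ^ 2 * (u + v) ^ 2 := by
    rw [show u ^ 2 - v ^ 2 = (u - v) * (u + v) by ring, abs_mul, abs_of_nonneg (add_nonneg u0 v0),
      ← sq_abs (u - v)]
    nlinarith [sq_nonneg (|u - v| - t * (u + v))]
  rw [div_add' _ _ _ (by positivity), le_div_iff₀ (by positivity)]
  nlinarith [mul_nonneg (sq_nonneg t) (sq_nonneg (u - v))]

theorem summable_abs (hM : M.PosDef) (a b : d → ℝ) :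
    Summable fun n : d → ℤ => |gs M (zc n - a) - gs M (zc n - b)| :=
  ((summable_gs hM a).sub (summable_gs hM b)).abs

/-- Hellinger bound for two centres -/
theorem tv_le (hM : M.PosDef) (c y : d → ℝ) {t : ℝ} (ht : 0 < t) :
    ∑' n : d → ℤ, |gs M (zc n - (c - y)) - gs M (zc n - (c + y))| ≤
      (th M (c - y) + th M (c + y) - 2 * (gs M y * th M c)) / (2 * t) +
        t * (th M (c - y) + th M (c + y)) := by
  have s1 := (summable_gs hM (c - y)).hasSum
  have s2 := (summable_gs hM (c + y)).hasSum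
  have s3 := ((summable_gs hM c).hasSum.mul_left (gs M y)).mul_left 2
  refine hasSum_le (fun n => ?_) (summable_abs hM _ _).hasSum
    ((((s1.add s2).sub s3).div_const (2 * t)).add ((s1.add s2).mul_left t))
  refine abs_sub_le_hell (gs_pos _ _).le (gs_pos _ _).le ?_ ht
  rw [show zc n - (c - y) = zc n - c + y by abel, show zc n - (c + y) = zc n - c - y by abel, gs_mid,
    mul_comm]

/-- half-integer shifts of the centre -/
theorem th_half (hM : M.PosDef) (θ y : d → ℝ) {z : d → ℤ} (h : zc z = y + y) :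
    gs M y * th M θ ≤ th M (θ + y) := by
  have e : th M (θ - y) = th M (θ + y) := by
    rw [← th_add_zc M (θ - y) z, h]; congr 1; abel
  have h2 : 2 * (gs M y * th M θ) ≤ th M (θ - y) + th M (θ + y) := by
    refine hasSum_le (fun n => ?_) (((summable_gs hM θ).hasSum.mul_left (gs M y)).mul_left 2)
      ((summable_gs hM (θ - y)).hasSum.add (summable_gs hM (θ + y)).hasSum)
    have := gs_mid M (zc n - θ) y
    rw [show zc n - (θ - y) = zc n - θ + y by abel, show zc n - (θ + y) = zc n - θ - y by abel]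
    refine (abs_le_of_sq_le_sq' ?_ (add_pos (gs_pos _ _) (gs_pos _ _)).le).2
    nlinarith [sq_nonneg (gs M (zc n - θ + y) - gs M (zc n - θ - y))]
  linarith

theorem one_sub_le_gs (M : Matrix d d ℝ) (x : d → ℝ) : 1 - Real.pi * qf M x ≤ gs M x := by
  rw [gs]; linarith [Real.add_one_le_exp (-(Real.pi * qf M x))]

/-- integer translates of a discrete Gaussian are close in total variation, in every dimension and
for every centre -/
theorem tv_shift (hM : M.PosDef) (θ : d → ℝ) (z : d → ℤ) :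
    ∑' n : d → ℤ, |gs M (zc n - θ) - gs M (zc (n + z) - θ)| ≤
      2 * √(Real.pi * qf M (zc z)) * th M θ := by
  obtain ⟨y, hy⟩ : ∃ y : d → ℝ, y = (2⁻¹ : ℝ) • zc z := ⟨_, rfl⟩
  have h0 : zc z = y + y := by rw [hy, ← add_smul]; norm_num
  have hq : qf M (zc z) = 4 * qf M y := by rw [hy, qf_smul_right]; ring
  have p := th_pos hM θ
  have q0 := mul_nonneg Real.pi_pos.le (qf_nonneg hM y)
  have key : ∀ t, 0 < t → ∑' n : d → ℤ, |gs M (zc n - θ) - gs M (zc (n + z) - θ)| ≤
      (2 * (Real.pi * qf M y) / t + 2 * t) * th M θ := fun t ht => by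
    have h1 := tv_le hM (θ - y) y ht
    have e1 : th M (θ - y - y) = th M θ := by
      rw [← th_add_zc M _ z, h0]; congr 1; abel
    have e2 : th M (θ - y) = th M (θ + y) := by
      rw [← th_add_zc M (θ - y) z, h0]; congr 1; abel
    have e3 : ∀ n : d → ℤ, zc n - (θ - y - y) = zc (n + z) - θ := fun n => by
      rw [zc_add, h0]; abel
    simp only [e1, e2, e3, sub_add_cancel, abs_sub_comm (gs M (zc (_ + z) - θ))] at h1
    refine h1.trans ?_
    have h2 := th_half hM θ y h0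
    have h3 := one_sub_le_gs M y
    have h4 := gs_pos M y
    have h5 := gs_le_one hM y
    have h6 : th M θ + th M θ - 2 * (gs M y * th M (θ + y)) ≤ 4 * (Real.pi * qf M y) * th M θ := by
      have : (1 - 2 * (Real.pi * qf M y)) * th M θ ≤ gs M y * (gs M y * th M θ) := by
        rw [← mul_assoc (gs M y)]
        refine mul_le_mul_of_nonneg_right ?_ p.le
        nlinarith [sq_nonneg (1 - gs M y)]
      nlinarith [mul_le_mul_of_nonneg_left h2 h4.le]
    calc _ ≤ 4 * (Real.pi * qf M y) * th M θ / (2 * t) + t * (th M θ + th M θ) := by gcongr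
      _ = _ := by field_simp; ring
  rw [hq, show Real.pi * (4 * qf M y) = 2 ^ 2 * (Real.pi * qf M y) by ring,
    Real.sqrt_mul (by positivity), Real.sqrt_sq zero_le_two]
  rcases q0.eq_or_lt with h | h
  · rw [← h] at key ⊢
    refine le_of_forall_pos_le_add fun ε hε => (key (ε / (2 * th M θ)) (by positivity)).trans ?_
    exact le_of_eq (by simp; field_simp)
  · have s := Real.sqrt_pos.2 h
    refine (key _ s).trans (le_of_eq ?_)
    rw [mul_div_assoc, Real.div_sqrt]
    ring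

/-- the seminorm `√(xᵀ M x)` -/
def nq (hM : M.PosDef) : Seminorm ℝ (d → ℝ) :=
  Seminorm.of (fun x => √(qf M x)) (fun x y => by
    have h := Real.le_sqrt_of_sq_le (dot_sq_le hM x y)
    rw [Real.sqrt_mul (qf_nonneg hM x)] at h
    refine Real.sqrt_le_iff.2 ⟨by positivity, ?_⟩
    rw [qf_add hM, add_sq, Real.sq_sqrt (qf_nonneg hM x), Real.sq_sqrt (qf_nonneg hM y)]
    linarith) fun a x => by
    rw [qf_smul_right, Real.sqrt_mul (sq_nonneg a), Real.sqrt_sq_eq_abs, Real.norm_eq_abs]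

theorem nq_apply (hM : M.PosDef) (x : d → ℝ) : nq hM x = √(qf M x) := rfl

/-- the discrete Gaussian law -/
def gm (M : Matrix d d ℝ) (θ : d → ℝ) : Measure (d → ℤ) :=
  Measure.sum fun n => ENNReal.ofReal (gs M (zc n - θ) / th M θ) • Measure.dirac n

theorem summable_ind (hM : M.PosDef) (θ : d → ℝ) (S : Set (d → ℤ)) :
    Summable fun n : d → ℤ => S.indicator (fun n => gs M (zc n - θ) / th M θ) n :=
  ((summable_gs hM θ).div_const _).indicator S

theorem gm_apply (hM : M.PosDef) (θ : d → ℝ) (S : Set (d → ℤ)) :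
    gm M θ S = ENNReal.ofReal (∑' n, S.indicator (fun n => gs M (zc n - θ) / th M θ) n) := by
  rw [gm, Measure.sum_apply _ MeasurableSet.of_discrete, ENNReal.ofReal_tsum_of_nonneg
    (fun n => Set.indicator_nonneg (fun m _ => div_nonneg (gs_pos _ _).le (th_nonneg _ _)) n)
    (summable_ind hM θ S)]
  refine tsum_congr fun n => ?_
  by_cases h : n ∈ S <;> simp [h]

theorem gm_real (hM : M.PosDef) (θ : d → ℝ) (S : Set (d → ℤ)) :
    (gm M θ).real S = ∑' n, S.indicator (fun n => gs M (zc n - θ) / th M θ) n := by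
  rw [measureReal_def, gm_apply hM, ENNReal.toReal_ofReal (tsum_nonneg fun n =>
    Set.indicator_nonneg (fun m _ => div_nonneg (gs_pos _ _).le (th_nonneg _ _)) n)]

theorem gm_prob (hM : M.PosDef) (θ : d → ℝ) : IsProbabilityMeasure (gm M θ) :=
  ⟨by rw [gm_apply hM, Set.indicator_univ, tsum_div_const, ← th, div_self (th_pos hM θ).ne',
    ENNReal.ofReal_one]⟩

/-- integrals against the discrete Gaussian law -/
theorem integral_gm (hM : M.PosDef) (θ : d → ℝ) {f : (d → ℤ) → ℂ} {B : ℝ} (hf : ∀ n, ‖f n‖ ≤ B) :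
    ∫ n, f n ∂gm M θ = (∑' n : d → ℤ, (gs M (zc n - θ) : ℂ) * f n) / th M θ := by
  have := gm_prob hM θ
  have i : Integrable f (gm M θ) :=
    Integrable.of_bound Measurable.of_discrete.aestronglyMeasurable B (.of_forall hf)
  rw [gm] at i ⊢
  rw [integral_sum_measure i, ← tsum_div_const]
  refine tsum_congr fun n => ?_
  rw [integral_smul_measure, integral_dirac, ENNReal.toReal_ofReal
    (div_nonneg (gs_pos _ _).le (th_nonneg _ _)), Complex.real_smul]
  push_cast
  ring

/-- quasi-invariance of the discrete Gaussian law -/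
theorem gm_qi (hM : M.PosDef) (θ : d → ℝ) : To.QI ((4 : NNReal) • nq hM) (gm M θ) := by
  intro S z
  have p := th_pos hM θ
  have e : (gm M θ).real ((· + z) '' S) =
      ∑' n, S.indicator (fun n => gs M (zc (n + z) - θ) / th M θ) n := by
    rw [gm_real hM, ← (Equiv.addRight z).tsum_eq]
    refine tsum_congr fun n => ?_
    by_cases h : n ∈ S <;> simp [h]
  have s1 : Summable fun n : d → ℤ => gs M (zc (n + z) - θ) :=
    (Equiv.addRight z).summable_iff.2 (summable_gs hM θ)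
  have h1 : (gm M θ).real S ≤ (gm M θ).real ((· + z) '' S) +
      (∑' n : d → ℤ, |gs M (zc n - θ) - gs M (zc (n + z) - θ)|) / th M θ := by
    rw [e, gm_real hM]
    refine hasSum_le (fun n => ?_) (summable_ind hM θ S).hasSum
      (((s1.div_const _).indicator S).hasSum.add
        (((summable_gs hM θ).sub s1).abs.hasSum.div_const _))
    by_cases h : n ∈ S
    · simp only [Set.indicator_of_mem h, ← add_div]
      gcongr
      linarith [le_abs_self (gs M (zc n - θ) - gs M (zc (n + z) - θ))]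
    · simp only [Set.indicator_of_notMem h, zero_add]
      positivity
  refine h1.trans (add_le_add le_rfl ?_)
  rw [div_le_iff₀ p]
  refine (tv_shift hM θ z).trans (mul_le_mul_of_nonneg_right ?_ p.le)
  change _ ≤ (4 : NNReal) • √(qf M (zc z))
  have : √Real.pi ≤ 2 := Real.sqrt_le_iff.2 ⟨zero_le_two, by linarith [Real.pi_le_four]⟩
  rw [Real.sqrt_mul Real.pi_pos.le, NNReal.smul_def, smul_eq_mul]
  push_cast
  nlinarith [Real.sqrt_nonneg (qf M (zc z))]

/-- product of two Gaussians summed over the lattice -/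
theorem tsum_two (hM : M.PosDef) (hM' : M'.PosDef) (a b : d → ℝ) :
    ∑' n : d → ℤ, gs M (zc n - a) * gs M' (zc n - b) =
      gs M ((M + M')⁻¹ *ᵥ (M *ᵥ a + M' *ᵥ b) - a) * gs M' ((M + M')⁻¹ *ᵥ (M *ᵥ a + M' *ᵥ b) - b) *
        th (M + M') ((M + M')⁻¹ *ᵥ (M *ᵥ a + M' *ᵥ b)) := by
  rw [th, ← tsum_mul_left]
  refine tsum_congr fun n => ?_
  simp only [gs, ← Real.exp_add]
  congr 1
  linear_combination (-Real.pi) * qf_two hM hM' a b (zc n)

/-- parallel sum of two forms -/
theorem inv_add_inv (hM : M.PosDef) (hM' : M'.PosDef) :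
    (M⁻¹ + M'⁻¹)⁻¹ = M * (M + M')⁻¹ * M' := by
  have u := hM.det_pos.ne'.isUnit
  have u' := hM'.det_pos.ne'.isUnit
  refine inv_eq_left_inv ?_
  have : M' * (M⁻¹ + M'⁻¹) = (M + M') * M⁻¹ := by
    rw [Matrix.mul_add, Matrix.add_mul, mul_nonsing_inv _ u, mul_nonsing_inv _ u', add_comm]
  rw [Matrix.mul_assoc, this, Matrix.mul_assoc, ← Matrix.mul_assoc _ (M + M'),
    nonsing_inv_mul _ (hM.add hM').det_pos.ne'.isUnit, Matrix.one_mul, mul_nonsing_inv _ u]

/-- variances add -/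
theorem qf_conv (hM : M.PosDef) (hM' : M'.PosDef) (a b : d → ℝ) :
    qf M ((M + M')⁻¹ *ᵥ (M *ᵥ a + M' *ᵥ b) - a) + qf M' ((M + M')⁻¹ *ᵥ (M *ᵥ a + M' *ᵥ b) - b) =
      qf (M⁻¹ + M'⁻¹)⁻¹ (a - b) := by
  have u := (hM.add hM').det_pos.ne'.isUnit
  obtain ⟨w, hw⟩ : ∃ w, w = (M + M')⁻¹ *ᵥ (M' *ᵥ (a - b)) := ⟨_, rfl⟩
  have h1 : M *ᵥ w + M' *ᵥ w = M' *ᵥ (a - b) := by
    rw [← add_mulVec, hw, mulVec_mulVec, mul_nonsing_inv _ u, one_mulVec]
  have h2 : (M + M')⁻¹ *ᵥ (M *ᵥ a + M' *ᵥ b) = a - w := by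
    rw [hw, eq_sub_iff_add_eq, ← mulVec_add, mulVec_sub, add_add_sub_cancel, ← add_mulVec,
      mulVec_mulVec, nonsing_inv_mul _ u, one_mulVec]
  have h3 : qf (M⁻¹ + M'⁻¹)⁻¹ (a - b) = (a - b) ⬝ᵥ M *ᵥ w := by
    rw [qf, inv_add_inv hM hM', hw, mulVec_mulVec, mulVec_mulVec]
  have h4 := congrArg (fun v => w ⬝ᵥ v) h1
  have h5 := congrArg (fun v => (a - b) ⬝ᵥ v) h1
  simp only [dotProduct_add] at h4 h5
  rw [h2, h3, show a - w - a = -w by abel, show a - w - b = a - b - w by abel, qf_neg, qf_sub hM']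
  rw [symm_dot hM' w (a - b)] at h4
  simp only [qf]
  linarith

theorem gs_two (hM : M.PosDef) (hM' : M'.PosDef) (a b x : d → ℝ) :
    gs M (x - a) * gs M' (x - b) = gs (M⁻¹ + M'⁻¹)⁻¹ (a - b) *
      gs (M + M') (x - (M + M')⁻¹ *ᵥ (M *ᵥ a + M' *ᵥ b)) := by
  simp only [gs, ← Real.exp_add]
  congr 1
  linear_combination (-Real.pi) * (qf_two hM hM' a b x + qf_conv hM hM' a b)

/-- discrete convolution of Gaussians -/
theorem tsum_conv (hM : M.PosDef) (hM' : M'.PosDef) (a b : d → ℝ) :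
    ∑' n : d → ℤ, gs M (zc n - a) * gs M' (zc n - b) =
      gs (M⁻¹ + M'⁻¹)⁻¹ (a - b) * th (M + M') ((M + M')⁻¹ *ᵥ (M *ᵥ a + M' *ᵥ b)) := by
  simp only [gs_two hM hM', th, tsum_mul_left]

/-- continuous convolution of Gaussians: a wide Gaussian is an exact mixture of narrow ones -/
theorem integral_conv (hM : M.PosDef) (hM' : M'.PosDef) (a b : d → ℝ) :
    ∫ x, gs M (x - a) * gs M' (x - b) = gs (M⁻¹ + M'⁻¹)⁻¹ (a - b) * dt (M + M') := by
  simp only [gs_two hM hM']
  rw [integral_const_mul, integral_sub_right_eq_self (gs (M + M')), integral_gs_real (hM.add hM')]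

/-- residue classes -/
def resE (d : Type) {q : ℕ} (hq : 0 < q) : (d → Fin q) × (d → ℤ) ≃ (d → ℤ) where
  toFun x i := q * x.2 i + (x.1 i : ℕ)
  invFun n := (fun i => ⟨(n i % q).toNat, by
    have := Int.emod_lt_of_pos (n i) (Int.natCast_pos.2 hq)
    omega⟩, fun i => n i / q)
  left_inv x := by
    have q0 : (q : ℤ) ≠ 0 := by omega
    refine Prod.ext (funext fun i => Fin.ext ?_) (funext fun i => ?_)
    · have : ((x.1 i : ℕ) : ℤ) < q := by exact_mod_cast (x.1 i).2
      simp [Int.emod_eq_of_lt (Int.natCast_nonneg (x.1 i)) this]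
    · have : ((x.1 i : ℕ) : ℤ) < q := by exact_mod_cast (x.1 i).2
      simp [Int.add_comm, Int.add_mul_ediv_left _ _ q0,
        Int.ediv_eq_zero_of_lt (Int.natCast_nonneg (x.1 i)) this]
  right_inv n := funext fun i => by
    have := Int.emod_nonneg (n i) (show (q : ℤ) ≠ 0 by omega)
    simp [Int.toNat_of_nonneg this, Int.mul_ediv_add_emod]

theorem tsum_res {E : Type*} [NormedAddCommGroup E] [CompleteSpace E] {q : ℕ} (hq : 0 < q)
    {F : (d → ℤ) → E} (hF : Summable F) :
    ∑' n, F n = ∑ r : d → Fin q, ∑' u : d → ℤ, F fun i => q * u i + (r i : ℕ) := by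
  rw [← (resE d hq).tsum_eq]
  exact (((resE d hq).summable_iff.2 hF).tsum_prod).trans (tsum_fintype _)

/-- a Gaussian on a residue class -/
theorem gs_res (M : Matrix d d ℝ) {q : ℕ} (hq : 0 < q) (θ : d → ℝ) (u r : d → ℤ) :
    gs M (zc (fun i => q * u i + r i) - θ) =
      gs (((q : ℝ) ^ 2) • M) (zc u - (q : ℝ)⁻¹ • (θ - zc r)) := by
  have q0 : (q : ℝ) ≠ 0 := by positivity
  rw [gs, gs, qf_smul, ← qf_smul_right]
  congr 4
  funext i
  simp only [zc, Pi.sub_apply, Pi.smul_apply, smul_eq_mul]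
  push_cast
  field_simp
  ring

end Crest.Agent.N49.Po

end
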