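import Crest.Agent.N49.Po.Ban

/-!
# Row 49 (helper83): Gaussians: positive definiteness, sublattices, products, completing squares
-/

set_option autoImplicit false
set_option linter.unusedSectionVars false

open Matrix MeasureTheory

noncomputable section

namespace Crest.Agent.N49.Po

variable {d e : Type} [Fintype d] [Fintype e] {M M' : Matrix d d ℝ}

theorem symm_dot (hM : M.PosDef) (x y : d → ℝ) : x ⬝ᵥ M *ᵥ y = y ⬝ᵥ M *ᵥ x := by
  have h : Mᵀ = M := by simpa [conjTranspose_eq_transpose_of_trivial] using hM.isHermitian.eq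
  rw [dotProduct_mulVec, ← mulVec_transpose, h, dotProduct_comm]

theorem qf_add (hM : M.PosDef) (x y : d → ℝ) :
    qf M (x + y) = qf M x + 2 * (x ⬝ᵥ M *ᵥ y) + qf M y := by
  simp only [qf, mulVec_add, add_dotProduct, dotProduct_add, symm_dot hM y x]
  ring

theorem qf_sub (hM : M.PosDef) (x y : d → ℝ) :
    qf M (x - y) = qf M x - 2 * (x ⬝ᵥ M *ᵥ y) + qf M y := by
  rw [sub_eq_add_neg, qf_add hM, qf_neg, mulVec_neg, dotProduct_neg]
  ring

theorem qf_add_le (hM : M.PosDef) (x y : d → ℝ) : qf M (x + y) ≤ 2 * qf M x + 2 * qf M y := by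
  linarith [qf_par M x y, qf_nonneg hM (x - y)]

/-- Cauchy-Schwarz -/
theorem dot_sq_le (hM : M.PosDef) (x y : d → ℝ) : (x ⬝ᵥ M *ᵥ y) ^ 2 ≤ qf M x * qf M y := by
  have h : ∀ t : ℝ, 0 ≤ qf M y * (t * t) + 2 * (x ⬝ᵥ M *ᵥ y) * t + qf M x := fun t => by
    have := qf_nonneg hM (x + t • y)
    rw [qf_add hM, qf_smul_right, mulVec_smul, dotProduct_smul, smul_eq_mul] at this
    linarith
  have := discrim_le_zero h
  rw [discrim] at this
  linarith

theorem qf_conj (M : Matrix d d ℝ) (B : Matrix d e ℝ) (u : e → ℝ) :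
    qf (Bᵀ * M * B) u = qf M (B *ᵥ u) := by
  rw [qf, qf, ← mulVec_mulVec, ← mulVec_mulVec, dotProduct_mulVec, vecMul_transpose]

theorem posDef_conj (hM : M.PosDef) {B : Matrix d e ℝ} (hB : Function.Injective B.mulVec) :
    (Bᵀ * M * B).PosDef := by
  simpa [conjTranspose_eq_transpose_of_trivial] using hM.conjTranspose_mul_mul_same hB

theorem zc_mulVec (B : Matrix d e ℤ) (u : e → ℤ) :
    zc (B *ᵥ u) = B.map (Int.cast : ℤ → ℝ) *ᵥ zc u := by
  funext i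
  simp [zc, mulVec, dotProduct]

variable [DecidableEq d] [DecidableEq e]

/-- pairing of a lattice with its dual -/
theorem dual_sq_le (hM : M.PosDef) (x k : d → ℝ) : (k ⬝ᵥ x) ^ 2 ≤ qf M⁻¹ k * qf M x := by
  have hu := hM.det_pos.ne'.isUnit
  have e : M *ᵥ (M⁻¹ *ᵥ k) = k := by rw [mulVec_mulVec, mul_nonsing_inv _ hu, one_mulVec]
  have := dot_sq_le hM x (M⁻¹ *ᵥ k)
  rw [e, qf, qf, e, dotProduct_comm (M⁻¹ *ᵥ k) k, dotProduct_comm x k, mul_comm] at this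
  exact this

/-- completing the square along a subspace -/
theorem qf_proj (hM : M.PosDef) {B : Matrix d e ℝ} (hB : Function.Injective B.mulVec) (θ : d → ℝ)
    (u : e → ℝ) : qf M (B *ᵥ u - θ) = qf (Bᵀ * M * B) (u - (Bᵀ * M * B)⁻¹ *ᵥ (Bᵀ *ᵥ (M *ᵥ θ))) +
      qf M (B *ᵥ ((Bᵀ * M * B)⁻¹ *ᵥ (Bᵀ *ᵥ (M *ᵥ θ))) - θ) := by
  obtain ⟨u0, h0⟩ : ∃ u0, u0 = (Bᵀ * M * B)⁻¹ *ᵥ (Bᵀ *ᵥ (M *ᵥ θ)) := ⟨_, rfl⟩
  have h1 : Bᵀ *ᵥ (M *ᵥ (B *ᵥ u0 - θ)) = 0 := by
    rw [mulVec_sub, mulVec_sub, mulVec_mulVec, mulVec_mulVec, h0, mulVec_mulVec _ (Bᵀ * M * B),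
      mul_nonsing_inv _ (posDef_conj hM hB).det_pos.ne'.isUnit, one_mulVec, sub_self]
  rw [← h0, qf_conj, show B *ᵥ u - θ = B *ᵥ (u - u0) + (B *ᵥ u0 - θ) by rw [mulVec_sub]; abel,
    qf_add hM, dotProduct_comm, dotProduct_mulVec, ← mulVec_transpose, h1, zero_dotProduct]
  ring

/-- Gaussian sums over an affine sublattice -/
theorem tsum_sub_lattice (hM : M.PosDef) {B : Matrix d e ℝ} (hB : Function.Injective B.mulVec)
    (θ : d → ℝ) : ∑' u : e → ℤ, gs M (B *ᵥ zc u - θ) =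
      gs M (B *ᵥ ((Bᵀ * M * B)⁻¹ *ᵥ (Bᵀ *ᵥ (M *ᵥ θ))) - θ) *
        th (Bᵀ * M * B) ((Bᵀ * M * B)⁻¹ *ᵥ (Bᵀ *ᵥ (M *ᵥ θ))) := by
  rw [th, ← tsum_mul_left]
  refine tsum_congr fun u => ?_
  rw [gs, gs, gs, qf_proj hM hB, ← Real.exp_add]
  ring_nf

/-- product of two Gaussians with different centres -/
theorem qf_two (hM : M.PosDef) (hM' : M'.PosDef) (a b x : d → ℝ) :
    qf M (x - a) + qf M' (x - b) = qf (M + M') (x - (M + M')⁻¹ *ᵥ (M *ᵥ a + M' *ᵥ b)) +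
      (qf M ((M + M')⁻¹ *ᵥ (M *ᵥ a + M' *ᵥ b) - a) + qf M' ((M + M')⁻¹ *ᵥ (M *ᵥ a + M' *ᵥ b) - b)) := by
  obtain ⟨c, hc⟩ : ∃ c, c = (M + M')⁻¹ *ᵥ (M *ᵥ a + M' *ᵥ b) := ⟨_, rfl⟩
  have h1 : M *ᵥ (c - a) + M' *ᵥ (c - b) = 0 := by
    have : (M + M') *ᵥ c = M *ᵥ a + M' *ᵥ b := by
      rw [hc, mulVec_mulVec, mul_nonsing_inv _ (hM.add hM').det_pos.ne'.isUnit, one_mulVec]
    rw [add_mulVec] at this
    rw [mulVec_sub, mulVec_sub, sub_add_sub_comm, this, sub_self]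
  have h2 := congrArg (fun v => (x - c) ⬝ᵥ v) h1
  simp only [dotProduct_add, dotProduct_zero] at h2
  rw [← hc, qf_add_left, show x - a = x - c + (c - a) by abel, show x - b = x - c + (c - b) by abel,
    qf_add hM, qf_add hM']
  linarith

theorem integrable_gs (hM : M.PosDef) : Integrable (gs M) := by
  obtain ⟨C, c, hc, h⟩ := exists_dec hM 0
  refine ((R312.PZ.integrable_gauss hc).const_mul C).mono' (continuous_gs M).aestronglyMeasurable
    (Filter.Eventually.of_forall fun x => ?_)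
  rw [Real.norm_of_nonneg (gs_pos _ _).le]
  simpa using h x

theorem integral_gs_real (hM : M.PosDef) : ∫ x, gs M x = dt M := by
  have := integral_gs hM 0
  simp only [zero_dotProduct, ee_zero, mul_one, gs_zero, integral_complex_ofReal] at this
  exact_mod_cast this

/-- a Gaussian is an average of characters -/
theorem gs_eq_integral (hM : M.PosDef) (x : d → ℝ) :
    (gs M x : ℂ) = dt M * ∫ η : d → ℝ, (gs M⁻¹ η : ℂ) * ee (x ⬝ᵥ η) := by
  have h0 : (dt M : ℂ) ≠ 0 := by exact_mod_cast (dt_pos hM).ne'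
  rw [integral_gs hM.inv, inv_inv' hM]
  change _ = (dt M : ℂ) * ((dt M⁻¹ * gs M x : ℝ) : ℂ)
  rw [dt_inv]
  push_cast
  field_simp

theorem integral_dual (hM : M.PosDef) : dt M * ∫ η, gs M⁻¹ η = 1 := by
  rw [integral_gs_real hM.inv, dt_inv, mul_inv_cancel₀ (dt_pos hM).ne']

theorem integrable_gs_mul (hM : M.PosDef) {f : (d → ℝ) → ℂ} (hf : Continuous f) {B : ℝ}
    (hB : ∀ η, ‖f η‖ ≤ B) : Integrable fun η => (gs M η : ℂ) * f η :=
  (integrable_gs hM).ofReal.mul_bdd hf.aestronglyMeasurable (Filter.Eventually.of_forall hB)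

/-- a Gaussian weight can be replaced by a character -/
theorem exists_char (hM : M.PosDef) {ι : Type*} (s : Finset ι) (c : ι → ℂ) (x : ι → d → ℝ) :
    ∃ η : d → ℝ, ‖∑ i ∈ s, c i * gs M (x i)‖ ≤ ‖∑ i ∈ s, c i * ee (x i ⬝ᵥ η)‖ := by
  obtain ⟨F, hF⟩ : ∃ F : (d → ℝ) → ℂ, F = fun η => ∑ i ∈ s, c i * ee (x i ⬝ᵥ η) := ⟨_, rfl⟩
  have ce : ∀ i, Continuous fun η : d → ℝ => ee (x i ⬝ᵥ η) := fun i =>
    continuous_ee.comp (by fun_prop)
  have cF : Continuous F := by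
    rw [hF]; exact continuous_finsetSum _ fun i _ => continuous_const.mul (ce i)
  have bF : ∀ η, ‖F η‖ ≤ ∑ i ∈ s, ‖c i‖ := fun η => by
    rw [hF]; exact norm_sum_le_of_le _ fun i _ => by rw [norm_mul, norm_ee, mul_one]
  have e : ∑ i ∈ s, c i * gs M (x i) = dt M * ∫ η, (gs M⁻¹ η : ℂ) * F η := by
    simp only [hF, Finset.mul_sum, mul_left_comm (gs M⁻¹ _ : ℂ)]
    rw [integral_finsetSum _ fun i _ =>
      (integrable_gs_mul hM.inv (ce i) fun η => (norm_ee _).le).const_mul _, Finset.mul_sum]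
    exact Finset.sum_congr rfl fun i _ => by
      rw [gs_eq_integral hM, integral_const_mul, mul_left_comm]
  by_contra a
  have hlt : ∀ η, ‖F η‖ < ‖∑ i ∈ s, c i * gs M (x i)‖ := fun η => by
    rw [hF]; exact not_le.1 fun b => a ⟨η, b⟩
  obtain ⟨B, hB⟩ : ∃ B, B = ‖∑ i ∈ s, c i * gs M (x i)‖ := ⟨_, rfl⟩
  rw [← hB] at hlt
  have i1 : Integrable fun η => gs M⁻¹ η * ‖F η‖ :=
    (integrable_gs hM.inv).mul_bdd cF.norm.aestronglyMeasurable
      (Filter.Eventually.of_forall fun η => by simpa using bF η)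
  have h1 : B ≤ dt M * ∫ η, gs M⁻¹ η * ‖F η‖ := by
    rw [hB, e, norm_mul, Complex.norm_real, Real.norm_of_nonneg (dt_pos hM).le]
    refine mul_le_mul_of_nonneg_left ((norm_integral_le_integral_norm _).trans (le_of_eq ?_))
      (dt_pos hM).le
    simp only [norm_mul, Complex.norm_real, Real.norm_of_nonneg (gs_pos _ _).le]
  have h2 : 0 < ∫ η, gs M⁻¹ η * (B - ‖F η‖) :=
    integral_pos_of_integrable_nonneg_nonzero (x := 0)
      ((continuous_gs _).mul (continuous_const.sub cF.norm))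
      (by simp only [mul_sub]; exact ((integrable_gs hM.inv).mul_const B).sub i1)
      (fun η => (mul_pos (gs_pos _ _) (sub_pos.2 (hlt η))).le)
      (mul_pos (gs_pos _ _) (sub_pos.2 (hlt 0))).ne'
  simp only [mul_sub] at h2
  rw [integral_sub ((integrable_gs hM.inv).mul_const B) i1, integral_mul_const] at h2
  have h3 := integral_dual hM
  have h4 := mul_pos (dt_pos hM) h2
  rw [mul_sub, ← mul_assoc, h3, one_mul] at h4
  linarith

end Crest.Agent.N49.Po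

end
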