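import Crest.Agent.N49.Po.Mas

/-!
# Row 49 (helper83): finite products of discrete Gaussians
-/

set_option autoImplicit false
set_option linter.unusedSectionVars false

open Matrix MeasureTheory Filter

noncomputable section

namespace Crest.Agent.N49.Po

variable {d : Type} [Fintype d] [DecidableEq d] {M : Matrix d d ℝ}

theorem integral_gm_real (hM : M.PosDef) (θ : d → ℝ) {f : (d → ℤ) → ℝ} {B : ℝ}
    (hf : ∀ n, |f n| ≤ B) : ∫ n, f n ∂gm M θ = (∑' n : d → ℤ, gs M (zc n - θ) * f n) / th M θ := by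
  have := integral_gm hM θ (f := fun n => (f n : ℂ)) (B := B) fun n => by simpa using hf n
  rw [integral_complex_ofReal] at this
  exact_mod_cast this

theorem gm_single (hM : M.PosDef) (θ : d → ℝ) (n : d → ℤ) :
    (gm M θ).real {n} = gs M (zc n - θ) / th M θ := by
  rw [gm_real hM, tsum_eq_single n fun _ e => Set.indicator_of_notMem (s := {n}) e _]
  simp

theorem abs_integral_gm_le (hM : M.PosDef) (θ : d → ℝ) {f : (d → ℤ) → ℝ} {B : ℝ}
    (hf : ∀ n, |f n| ≤ B) : |∫ n, f n ∂gm M θ| ≤ B := by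
  have := gm_prob hM θ
  simpa using norm_integral_le_of_norm_le_const (μ := gm M θ) (f := f) (C := B) (.of_forall hf)

section pi
variable {W : Type} [Fintype W] [DecidableEq W] {X : W → Type}

theorem summable_pi_prod {f : ∀ w, X w → ℝ} (h0 : ∀ w x, 0 ≤ f w x) (hf : ∀ w, Summable (f w)) :
    Summable fun n : ∀ w, X w => ∏ w, f w (n w) := by
  classical
  refine summable_of_sum_le (c := ∏ w, ∑' x, f w x)
    (fun _ => Finset.prod_nonneg fun _ _ => h0 _ _) fun S => ?_
  have h1 : S ⊆ Fintype.piFinset fun w => S.image fun n => n w := fun n hn =>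
    Fintype.mem_piFinset.2 fun i => Finset.mem_image_of_mem _ hn
  refine (Finset.sum_le_sum_of_subset_of_nonneg h1 fun _ _ _ =>
    Finset.prod_nonneg fun _ _ => h0 _ _).trans ?_
  rw [← Finset.prod_univ_sum (fun w => S.image fun n => n w) f]
  exact Finset.prod_le_prod (fun _ _ => Finset.sum_nonneg fun _ _ => h0 _ _)
    fun w _ => (hf w).sum_le_tsum _ fun _ _ => h0 _ _

/-- Fubini for finite products -/
theorem tsum_pi_prod {𝕜 : Type} [RCLike 𝕜] {f : ∀ w, X w → 𝕜} (hf : ∀ w, Summable (f w)) :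
    ∑' n : ∀ w, X w, ∏ w, f w (n w) = ∏ w, ∑' x, f w x := by
  classical
  have s : Summable fun n : ∀ w, X w => ∏ w, f w (n w) :=
    .of_norm_bounded (summable_pi_prod (fun w x => norm_nonneg (f w x)) fun w => (hf w).norm)
      fun n => (norm_prod _ _).le
  have t1 : Tendsto (fun S : ∀ w, Finset (X w) => Fintype.piFinset S) atTop atTop :=
    Monotone.tendsto_atTop_atTop (fun S T h => Fintype.piFinset_subset _ _ h) fun S =>
      ⟨fun w => S.image fun n => n w, fun n hn =>
        Fintype.mem_piFinset.2 fun i => Finset.mem_image_of_mem _ hn⟩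
  have t2 : ∀ w, Tendsto (fun S : ∀ w, Finset (X w) => S w) atTop atTop := fun w =>
    Monotone.tendsto_atTop_atTop (fun S T h => h w) fun S =>
      ⟨Function.update (fun _ => ∅) w S, by simp⟩
  refine tendsto_nhds_unique (s.hasSum.comp t1) ?_
  have := tendsto_finsetProd Finset.univ fun w _ => ((hf w).hasSum.comp (t2 w) :)
  exact this.congr fun S => Finset.prod_univ_sum S f

/-- theta sums of a form dominating an orthogonal sum -/
theorem th_le_prod {c : W → Type} [∀ w, Fintype (c w)] [∀ w, DecidableEq (c w)]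
    {N : ∀ w, Matrix (c w) (c w) ℝ} (hN : ∀ w, (N w).PosDef) (hM : M.PosDef) (ι : ∀ w, c w → d)
    (hι : ∀ i, ∃ w a, ι w a = i) (h : ∀ x, ∑ w, qf (N w) (x ∘ ι w) ≤ qf M x) (θ : d → ℝ) :
    th M θ ≤ ∏ w, th (N w) (θ ∘ ι w) := by
  obtain ⟨f, hf⟩ : ∃ f : ∀ w, (c w → ℤ) → ℝ, f = fun w n => gs (N w) (zc n - θ ∘ ι w) := ⟨_, rfl⟩
  have s : ∀ w, Summable (f w) := fun w => by rw [hf]; exact summable_gs (hN w) (θ ∘ ι w)
  have p : ∀ w n, 0 ≤ f w n := fun w n => by rw [hf]; exact (gs_pos _ _).le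
  have e : ∏ w, th (N w) (θ ∘ ι w) = ∏ w, ∑' n, f w n := by rw [hf]; rfl
  rw [e, ← tsum_pi_prod s]
  refine (summable_gs hM θ).tsum_le_tsum_of_inj (fun n w => n ∘ ι w) (fun n n' a => funext fun i => ?_)
    (fun _ _ => Finset.prod_nonneg fun _ _ => p _ _) (fun n => ?_) (summable_pi_prod p s)
  · obtain ⟨w, b, rfl⟩ := hι i
    exact congrFun (congrFun a w) b
  · simp only [hf, gs, ← Real.exp_sum, Finset.sum_neg_distrib, ← Finset.mul_sum]
    exact Real.exp_le_exp.2 (neg_le_neg (mul_le_mul_of_nonneg_left (h (zc n - θ)) Real.pi_pos.le))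

end pi

section gpi
variable {W : Type} [Fintype W] [DecidableEq W] {N : W → Matrix d d ℝ}

theorem summable_gs_pi (hN : ∀ w, (N w).PosDef) (θ : W → d → ℝ) :
    Summable fun n : W → d → ℤ => ∏ w, gs (N w) (zc (n w) - θ w) :=
  summable_pi_prod (f := fun w (n : d → ℤ) => gs (N w) (zc n - θ w)) (fun _ _ => (gs_pos _ _).le)
    fun w => summable_gs (hN w) (θ w)

theorem tsum_gs_pi (hN : ∀ w, (N w).PosDef) (θ : W → d → ℝ) :
    ∑' n : W → d → ℤ, ∏ w, gs (N w) (zc (n w) - θ w) = ∏ w, th (N w) (θ w) :=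
  tsum_pi_prod (f := fun w (n : d → ℤ) => gs (N w) (zc n - θ w)) fun w => summable_gs (hN w) (θ w)

/-- the product law -/
def gp (N : W → Matrix d d ℝ) (θ : W → d → ℝ) : Measure (W → d → ℤ) :=
  Measure.pi fun w => gm (N w) (θ w)

theorem gp_prob (hN : ∀ w, (N w).PosDef) (θ : W → d → ℝ) : IsProbabilityMeasure (gp N θ) := by
  have := fun w => gm_prob (hN w) (θ w)
  unfold gp
  infer_instance

theorem integral_gp (hN : ∀ w, (N w).PosDef) (θ : W → d → ℝ) {f : (W → d → ℤ) → ℝ} {B : ℝ}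
    (hf : ∀ n, |f n| ≤ B) : ∫ n, f n ∂gp N θ =
      (∑' n : W → d → ℤ, (∏ w, gs (N w) (zc (n w) - θ w)) * f n) / ∏ w, th (N w) (θ w) := by
  have := fun w => gm_prob (hN w) (θ w)
  have := gp_prob hN θ
  rw [integral_countable (.of_bound (measurable_of_countable f).aestronglyMeasurable B
    (.of_forall hf)), ← tsum_div_const]
  refine tsum_congr fun n => ?_
  rw [gp, measureReal_def, Measure.pi_singleton, ENNReal.toReal_prod, smul_eq_mul]
  simp only [← measureReal_def, fun w => gm_single (hN w) (θ w) (n w), Finset.prod_div_distrib]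
  ring

theorem abs_integral_gp_le (hN : ∀ w, (N w).PosDef) (θ : W → d → ℝ) {f : (W → d → ℤ) → ℝ} {B : ℝ}
    (hf : ∀ n, |f n| ≤ B) : |∫ n, f n ∂gp N θ| ≤ B := by
  have := gp_prob hN θ
  simpa using norm_integral_le_of_norm_le_const (μ := gp N θ) (f := f) (C := B) (.of_forall hf)

end gpi

end Crest.Agent.N49.Po

end
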