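import Crest.Agent.N49.Po.Mix
import Crest.Agent.N49.To.Bd

/-!
# Row 49 (helper47): short bases of smooth lattices; the vector lemma without a preferred basis
-/

set_option autoImplicit false
set_option linter.unusedSectionVars false

open Matrix MeasureTheory Finset

noncomputable section

namespace Crest.Agent.N49.Po

open Crest.Agent.N49.La Crest.Agent.N49.To

variable {d : Type} [Fintype d] [DecidableEq d] {M : Matrix d d ℝ}

theorem zc_eq_ci (u : d → ℤ) : zc u = ci u := rfl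

/-- independent short vectors give a short basis -/
theorem short_of_indep (N : Seminorm ℝ (d → ℝ)) (V : Matrix d d ℤ) (hV : V.det ≠ 0) {s : ℝ}
    (hs : ∀ j, N (zc fun i => V i j) ≤ s) : ∃ U W : Matrix d d ℤ, U * W = 1 ∧ W * U = 1 ∧
      ∀ j, N (zc fun i => U i j) ≤ Fintype.card d * s := by
  obtain ⟨a, ha⟩ : ∃ a : (d → ℤ) → d → ℤ, a = fun x => V.adjugate *ᵥ x := ⟨_, rfl⟩
  have a1 : ∀ x, V *ᵥ a x = V.det • x := fun x => by
    rw [ha, mulVec_mulVec, mul_adjugate, smul_mulVec, one_mulVec]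
  have a2 : ∀ r, a (V *ᵥ r) = V.det • r := fun r => by
    simp only [ha, mulVec_mulVec, adjugate_mul, smul_mulVec, one_mulVec]
  have a3 : ∀ x y, a (x - y) = a x - a y := fun x y => by simp only [ha, mulVec_sub]
  have a4 : ∀ (n : ℤ) x, a (n • x) = n • a x := fun n x => by simp only [ha, mulVec_smul]
  have a5 : ∀ x y, a (x + y) = a x + a y := fun x y => by simp only [ha, mulVec_add]
  obtain ⟨e⟩ : Nonempty (d ≃ Fin (Fintype.card d)) := ⟨Fintype.equivFin d⟩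
  have ex : ∀ i, ∃ y, (∀ j, e i < e j → a y j = 0) ∧ (∀ j, |a y j| ≤ |V.det|) ∧
      ∀ x, (∀ j, e i < e j → a x j = 0) → ∃ n : ℤ, n * a y i = a x i := fun i => by
    let H : AddSubgroup ℤ :=
      { carrier := {t | ∃ x, (∀ j, e i < e j → a x j = 0) ∧ a x i = t}
        zero_mem' := ⟨0, fun j _ => by simp [ha], by simp [ha]⟩
        add_mem' := by
          rintro _ _ ⟨x, hx, rfl⟩ ⟨y, hy, rfl⟩
          exact ⟨x + y, fun j hj => by simp [a5, hx j hj, hy j hj], by simp [a5]⟩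
        neg_mem' := by
          rintro _ ⟨x, hx, rfl⟩
          exact ⟨(-1 : ℤ) • x, fun j hj => by simp only [a4]; simp [hx j hj], by
            simp only [a4]; simp⟩ }
    obtain ⟨g, hg⟩ := Int.subgroup_cyclic H
    have hm : ∀ x, (∀ j, e i < e j → a x j = 0) → ∃ n : ℤ, n * g = a x i := fun x hx => by
      have : a x i ∈ H := ⟨x, hx, rfl⟩
      rw [hg, AddSubgroup.mem_closure_singleton] at this
      simpa using this
    obtain ⟨y, hy, hyg⟩ : g ∈ H := by rw [hg]; exact AddSubgroup.mem_closure_singleton_self g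
    obtain ⟨n, hn⟩ := hm (V *ᵥ Pi.single i 1) fun j hj => by
      have : j ≠ i := fun h => by simp [h] at hj
      rw [a2]; simp [this]
    simp only [a2, Pi.smul_apply, Pi.single_eq_same, smul_eq_mul, mul_one] at hn
    have hgD : |g| ≤ |V.det| := Int.le_of_dvd (abs_pos.2 hV) ((abs_dvd_abs _ _).2 ⟨n, by
      rw [← hn, mul_comm]⟩)
    refine ⟨y - V *ᵥ fun j => if j = i then 0 else a y j / V.det, fun j hj => ?_, fun j => ?_,
      fun x hx => ?_⟩
    · simp [a3, a2, hy j hj]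
    · by_cases h : j = i
      · subst h; simpa [a3, a2, hyg] using hgD
      · have e1 : a y j - V.det * (a y j / V.det) = a y j % V.det := by
          rw [Int.emod_def]
        simp only [a3, a2, Pi.sub_apply, Pi.smul_apply, if_neg h, smul_eq_mul, e1]
        rw [abs_of_nonneg (Int.emod_nonneg _ hV)]
        exact (Int.emod_lt_abs _ hV).le
    · simpa [a3, a2, hyg] using hm x hx
  choose y y1 y2 y3 using ex
  obtain ⟨U, hU⟩ : ∃ U : Matrix d d ℤ, U = Matrix.of fun i j => y j i := ⟨_, rfl⟩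
  have sp : ∀ k : ℕ, ∀ x, (∀ j, k ≤ (e j : ℕ) → a x j = 0) → ∃ c, U *ᵥ c = x := by
    intro k
    induction k with
    | zero =>
      intro x hx
      have h0 : a x = 0 := funext fun j => hx j (Nat.zero_le _)
      have := a1 x
      rw [h0, mulVec_zero] at this
      exact ⟨0, by rw [mulVec_zero, (smul_eq_zero.1 this.symm).resolve_left hV]⟩
    | succ k ih =>
      intro x hx
      by_cases hk : k < Fintype.card d
      · obtain ⟨i, hi⟩ : ∃ i, e i = ⟨k, hk⟩ := ⟨e.symm ⟨k, hk⟩, by simp⟩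
        obtain ⟨n, hn⟩ := y3 i x fun j hj => hx j (by rw [hi] at hj; exact hj)
        obtain ⟨c, hc⟩ := ih (x - n • y i) fun j hj => by
          rcases hj.eq_or_lt with h | h
          · have : j = i := e.injective (by rw [hi]; exact Fin.ext h.symm)
            rw [a3, a4]; simp [this, hn]
          · rw [a3, a4]; simp [hx j h, y1 i j (by rw [hi]; exact h)]
        refine ⟨c + Pi.single i n, ?_⟩
        rw [mulVec_add, hc]
        funext l
        simp [hU, mul_comm]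
      · exact ih x fun j hj => absurd ((e j).2.trans_le (not_lt.1 hk)) (not_lt.2 hj)
  choose c hc using fun j => sp (Fintype.card d) (Pi.single j 1) fun l hl =>
    absurd (e l).2 (not_lt.2 hl)
  have h1 : U * (Matrix.of fun i j => c j i) = 1 := by
    ext i j
    have := congrFun (hc j) i
    rw [one_apply, mul_apply]
    simpa [mulVec, dotProduct, Pi.single_apply] using this
  refine ⟨U, _, h1, mul_eq_one_comm.1 h1, fun j => ?_⟩
  have D0 : (V.det : ℝ) ≠ 0 := Int.cast_ne_zero.2 hV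
  have e1 : (zc fun i => U i j) = ∑ l, ((a (y j) l : ℝ) / V.det) • zc fun i => V i l := by
    funext i
    have := congrArg (Int.cast : ℤ → ℝ) (congrFun (a1 (y j)) i)
    simp only [mulVec, dotProduct, Pi.smul_apply, smul_eq_mul] at this
    rw [Int.cast_mul, Int.cast_sum] at this
    simp only [Int.cast_mul] at this
    simp only [zc, hU, of_apply, Finset.sum_apply, Pi.smul_apply, smul_eq_mul, div_mul_eq_mul_div,
      ← sum_div]
    rw [eq_div_iff D0, mul_comm, ← this]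
    exact sum_congr rfl fun l _ => mul_comm _ _
  rw [e1]
  refine (le_sum_of_subadditive N (map_zero N).le (map_add_le_add N) _ _).trans ?_
  rw [← card_univ, ← nsmul_eq_mul]
  refine sum_le_card_nsmul _ _ _ fun l _ => ?_
  rw [map_smul_eq_mul]
  refine (mul_le_of_le_one_left (apply_nonneg _ _) ?_).trans (hs l)
  rw [Real.norm_eq_abs, abs_div]
  exact div_le_one_of_le₀ (by exact_mod_cast y2 j l) (abs_nonneg _)

/-- covering radius of a smooth lattice -/
theorem cover' (hM : M.PosDef) {R : ℝ} (hR : 0 < R)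
    (h : ∀ m : d → ℤ, m ≠ 0 → R ≤ qf M⁻¹ (zc m)) (θ : d → ℝ) :
    ∃ n : d → ℤ, nq hM (zc n - θ) ≤ (Fintype.card d + 2) / √R := by
  obtain ⟨r, hr⟩ : ∃ r : ℝ, r = Fintype.card d + 2 := ⟨_, rfl⟩
  have r0 : 0 < r := by rw [hr]; positivity
  have t0 : 0 < R / r := by positivity
  obtain ⟨n, hn⟩ := cover (hM.smul t0) (R := r) (fun m hm => by
    rw [inv_smul' hM t0.ne', qf_smul, inv_div, div_mul_eq_mul_div, le_div_iff₀ hR]
    exact mul_le_mul_of_nonneg_left (h m hm) r0.le) ((bz_le (L := 2) hr.ge zero_le_two).trans (by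
      rw [Real.exp_neg, inv_le_comm₀ (Real.exp_pos _) (by norm_num)]
      have := Real.add_one_le_exp 1
      rw [show (2 : ℝ) = 1 + 1 by norm_num, Real.exp_add]
      nlinarith)) θ
  refine ⟨n, ?_⟩
  rw [qf_smul, div_mul_eq_mul_div, div_lt_iff₀ r0] at hn
  rw [nq_apply, ← hr, le_div_iff₀ (Real.sqrt_pos.2 hR), ← Real.sqrt_mul (qf_nonneg hM _)]
  exact Real.sqrt_le_iff.2 ⟨r0.le, by nlinarith⟩

/-- short vectors span -/
theorem exists_indep (hM : M.PosDef) {b : ℝ} (hb : 0 < b)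
    (h : ∀ θ, ∃ n : d → ℤ, nq hM (zc n - θ) ≤ b) :
    ∃ V : Matrix d d ℤ, V.det ≠ 0 ∧ ∀ j, nq hM (zc fun i => V i j) ≤ 3 * b := by
  obtain ⟨S, hS⟩ : ∃ S : Set (d → ℝ), S = zc '' {n | nq hM (zc n) ≤ 3 * b} := ⟨_, rfl⟩
  have top : Submodule.span ℝ S = ⊤ := by
    by_contra c
    obtain ⟨f, f0, hf⟩ := Submodule.exists_le_ker_of_lt_top _ (lt_top_iff_ne_top.2 c)
    obtain ⟨k, hk⟩ : ∃ k : d → ℝ, ∀ x, f x = k ⬝ᵥ x := ⟨fun i => f (Pi.single i 1), fun x => by
      rw [LinearMap.pi_apply_eq_sum_univ, dotProduct]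
      exact sum_congr rfl fun i _ => by
        rw [smul_eq_mul, mul_comm]; congr 2; funext j; simp [Pi.single_apply, eq_comm]⟩
    have k0 : k ≠ 0 := fun e => f0 (LinearMap.ext fun x => by simp [hk, e])
    have q0 : 0 < qf M⁻¹ k := by simpa [qf] using hM.inv.dotProduct_mulVec_pos k0
    have s0 := Real.sqrt_pos.2 q0
    have s1 := Real.sq_sqrt q0.le
    have hu := hM.det_pos.ne'.isUnit
    have e : M *ᵥ (M⁻¹ *ᵥ k) = k := by rw [mulVec_mulVec, mul_nonsing_inv _ hu, one_mulVec]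
    have q1 : qf M (M⁻¹ *ᵥ k) = qf M⁻¹ k := by rw [qf, qf, e, dotProduct_comm]
    obtain ⟨θ, hθ⟩ : ∃ θ, θ = (2 * b / √(qf M⁻¹ k)) • (M⁻¹ *ᵥ k) := ⟨_, rfl⟩
    have n1 : nq hM θ = 2 * b := by
      rw [hθ, map_smul_eq_mul, nq_apply, q1, Real.norm_of_nonneg (by positivity)]
      field_simp
    have n2 : k ⬝ᵥ θ = 2 * b * √(qf M⁻¹ k) := by
      rw [hθ, dotProduct_smul, smul_eq_mul, ← qf, div_mul_eq_mul_div, div_eq_iff s0.ne',
        mul_assoc (2 * b), ← sq, s1]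
    obtain ⟨n, hn⟩ := h θ
    have n3 : k ⬝ᵥ zc n = 0 := by
      rw [← hk]
      refine hf (Submodule.subset_span ?_)
      rw [hS]
      refine ⟨n, ?_, rfl⟩
      have := map_add_le_add (nq hM) (zc n - θ) θ
      rw [sub_add_cancel] at this
      change nq hM (zc n) ≤ 3 * b
      linarith
    have n4 := dual_sq_le hM (zc n - θ) k
    have n5 : qf M (zc n - θ) ≤ b ^ 2 := by
      rw [nq_apply, Real.sqrt_le_iff] at hn; exact hn.2
    rw [dotProduct_sub, n3, n2, zero_sub, neg_sq, mul_pow, s1] at n4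
    nlinarith [mul_le_mul_of_nonneg_left n5 q0.le, mul_pos (pow_pos hb 2) q0]
  obtain ⟨B, B1, B2, B3⟩ := exists_linearIndependent ℝ S
  let bs : Module.Basis B ℝ (d → ℝ) := Module.Basis.mk B3 (by
    rw [Subtype.range_coe, B2, top])
  have : Finite B := Module.Finite.finite_basis bs
  have := Fintype.ofFinite B
  obtain ⟨e⟩ : Nonempty (d ≃ B) := ⟨Fintype.equivOfCardEq (by
    rw [← Module.finrank_eq_card_basis bs, Module.finrank_fintype_fun_eq_card])⟩
  have ex : ∀ j, ∃ n : d → ℤ, nq hM (zc n) ≤ 3 * b ∧ zc n = e j := fun j => by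
    have := B1 (e j).2
    rw [hS] at this
    exact this
  choose v v1 v2 using ex
  refine ⟨Matrix.of fun i j => v j i, fun h0 => ?_, v1⟩
  have li : LinearIndependent ℝ ((Matrix.of fun i j => v j i).map (Int.cast : ℤ → ℝ)).col := by
    have e2 : ((Matrix.of fun i j => v j i).map (Int.cast : ℤ → ℝ)).col = Subtype.val ∘ e :=
      funext fun j => v2 j
    rw [e2]
    exact B3.comp e e.injective
  have := (isUnit_iff_isUnit_det _).1 (linearIndependent_cols_iff_isUnit.1 li)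
  rw [← Int.cast_det, h0] at this
  simp at this

/-- fineness in some basis -/
def Fi (N : Seminorm ℝ (d → ℝ)) (β : ℝ) : Prop :=
  ∃ U W : Matrix d d ℤ, U * W = 1 ∧ W * U = 1 ∧ ∑ j, N (zc fun i => U i j) ≤ β

theorem Fi.mono {N : Seminorm ℝ (d → ℝ)} {β β' : ℝ} (h : Fi N β) (k : β ≤ β') : Fi N β' :=
  let ⟨U, W, a, b, c⟩ := h; ⟨U, W, a, b, c.trans k⟩

theorem Fi.of_le {N N' : Seminorm ℝ (d → ℝ)} {β c : ℝ} (h : Fi N β) (c0 : 0 ≤ c)
    (k : ∀ x, N' x ≤ c * N x) : Fi N' (c * β) :=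
  let ⟨U, W, a, b, e⟩ := h
  ⟨U, W, a, b, (sum_le_sum fun _ _ => k _).trans (by
    rw [← mul_sum]; exact mul_le_mul_of_nonneg_left e c0)⟩

theorem Fi.nonneg {N : Seminorm ℝ (d → ℝ)} {β : ℝ} (h : Fi N β) : 0 ≤ β :=
  let ⟨_, _, _, _, c⟩ := h; (sum_nonneg fun _ _ => apply_nonneg _ _).trans c

theorem Fi.of_fine (N : Seminorm ℝ (d → ℝ)) : Fi N (fine N) :=
  ⟨1, 1, by simp, by simp, le_of_eq (sum_congr rfl fun j _ => by
    congr 1; funext i; simp [zc, one_apply, Pi.single_apply])⟩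

/-- **short basis** of a smooth lattice -/
theorem short_basis (hM : M.PosDef) {R : ℝ} (hR : 0 < R)
    (h : ∀ m : d → ℤ, m ≠ 0 → R ≤ qf M⁻¹ (zc m)) : ∃ U W : Matrix d d ℤ, U * W = 1 ∧ W * U = 1 ∧
      ∀ j, nq hM (zc fun i => U i j) ≤ 3 * (Fintype.card d + 2) ^ 2 / √R := by
  have s0 := Real.sqrt_pos.2 hR
  obtain ⟨V, V0, V1⟩ := exists_indep hM (by positivity) (cover' hM hR h)
  obtain ⟨U, W, a, b, c⟩ := short_of_indep _ V V0 V1
  refine ⟨U, W, a, b, fun j => (c j).trans ?_⟩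
  rw [← mul_div_assoc, ← mul_div_assoc]
  refine div_le_div_of_nonneg_right ?_ s0.le
  nlinarith [(Nat.cast_nonneg (Fintype.card d) : (0 : ℝ) ≤ _)]

/-- a smooth lattice is fine for the norm of its Gaussian law -/
theorem fi_smooth (hM : M.PosDef) {R : ℝ} (hR : 0 < R)
    (h : ∀ m : d → ℤ, m ≠ 0 → R ≤ qf M⁻¹ (zc m)) :
    Fi ((4 : NNReal) • nq hM) (12 * (Fintype.card d + 2) ^ 3 / √R) := by
  obtain ⟨U, W, a, b, c⟩ := short_basis hM hR h
  have s0 := Real.sqrt_pos.2 hR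
  have : Fi (nq hM) (3 * (Fintype.card d + 2) ^ 3 / √R) := ⟨U, W, a, b,
    (sum_le_card_nsmul _ _ _ fun j _ => c j).trans (by
      rw [card_univ, nsmul_eq_mul, ← mul_div_assoc]
      refine div_le_div_of_nonneg_right ?_ s0.le
      nlinarith [(Nat.cast_nonneg (Fintype.card d) : (0 : ℝ) ≤ _),
        sq_nonneg ((Fintype.card d : ℝ) + 2)])⟩
  exact (this.of_le (c := 4) (by norm_num) fun x => le_of_eq (by
    rw [_root_.smul_apply, NNReal.smul_def, smul_eq_mul]; norm_num)).mono (le_of_eq (by ring))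

/-! ### transport along a change of basis -/

section tr
variable {N : Seminorm ℝ (d → ℝ)} {μ : Measure (d → ℤ)} {U W : Matrix d d ℤ}

/-- the seminorm in the coordinates of the basis `U` -/
def nU (N : Seminorm ℝ (d → ℝ)) (U : Matrix d d ℤ) : Seminorm ℝ (d → ℝ) :=
  N.comp (U.map (Int.cast : ℤ → ℝ)).mulVecLin

theorem nU_ci (u : d → ℤ) : nU N U (ci u) = N (ci (U *ᵥ u)) := by
  rw [← zc_eq_ci, ← zc_eq_ci, zc_mulVec]; rfl

theorem fine_nU : fine (nU N U) = ∑ j, N (zc fun i => U i j) :=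
  sum_congr rfl fun j _ => by
    change N (_ *ᵥ _) = _
    congr 1; funext i; simp [zc]

theorem map_real (f : (d → ℤ) → d → ℤ) (S : Set (d → ℤ)) :
    (μ.map f).real S = μ.real (f ⁻¹' S) :=
  map_measureReal_apply Measurable.of_discrete MeasurableSet.of_discrete

theorem qi_nU (h : QI N μ) (a : U * W = 1) (b : W * U = 1) : QI (nU N U) (μ.map (W *ᵥ ·)) := by
  intro S z
  rw [map_real, map_real, nU_ci]
  refine (h _ (U *ᵥ z)).trans (add_le_add_left (measureReal_congr (.of_eq ?_)).le _)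
  ext x
  constructor
  · rintro ⟨y, hy, rfl⟩
    exact ⟨_, hy, by simp only [mulVec_add, mulVec_mulVec, b, one_mulVec]⟩
  · rintro ⟨y, hy, e⟩
    refine ⟨U *ᵥ y, by simpa only [Set.mem_preimage, mulVec_mulVec, b, one_mulVec] using hy, ?_⟩
    simp only at e
    simp only [← mulVec_add, e, mulVec_mulVec, a, one_mulVec]

theorem qi_shift (h : QI N μ) (s : d → ℤ) : QI N (μ.map (· - s)) := by
  intro S z
  rw [map_real, map_real]
  refine (h _ z).trans (add_le_add_left (measureReal_congr (.of_eq ?_)).le _)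
  ext x
  constructor
  · rintro ⟨y, hy, rfl⟩
    exact ⟨_, hy, by simp only; abel⟩
  · rintro ⟨y, hy, e⟩
    refine ⟨y + s, by simpa using hy, ?_⟩
    simp only at e ⊢
    rw [add_right_comm, e, sub_add_cancel]

end tr

section vec
variable {V : Type*} [AddCommGroup V] [Module ℝ V] {N : Seminorm ℝ (d → ℝ)} {β : ℝ}

/-- the vector lemma, basis free -/
theorem bd1F (S : Sz V) (Z : AddSubgroup V) {σ : ℝ} (hZ : ∀ v ∈ Z, ∀ c < σ, S.Bd v c → v = 0)
    {μ : Measure (d → ℤ)} [IsProbabilityMeasure μ] (h : QI N μ) (hF : Fi N β)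
    (ξ : (d → ℤ) →+ V) {δ ε : ℝ} (hδ : 0 < δ) (hε : 0 ≤ ε)
    (hS : δ ≤ μ.real {u | ∃ a ∈ Z, S.Bd (ξ u - a) ε}) (hβ : 100 * β ≤ δ ^ 3)
    (hσ : 200 * ε < σ * δ ^ 3) :
    ∃ q : ℕ, 1 ≤ q ∧ (q : ℝ) ≤ 3 / δ ∧ ∃ I : (d → ℤ) →+ V, (∀ u, I u ∈ Z) ∧
      ∀ u, S.Bd ((q : ℝ) • ξ u - I u) (300 * ε / δ ^ 3 * N (ci u)) := by
  obtain ⟨U, W, a, b, c⟩ := hF
  have := Measure.isProbabilityMeasure_map (μ := μ) (f := (W *ᵥ ·))
    Measurable.of_discrete.aemeasurable
  obtain ⟨q, q1, q2, I, I1, I2⟩ := bd1 S Z hZ (qi_nU h a b)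
    (ξ.comp U.mulVecLin.toAddMonoidHom) hδ hε (by
      rw [map_real]
      refine hS.trans_eq (congrArg _ (Set.ext fun u => ?_))
      simp [a]) (by rw [fine_nU]; linarith) hσ
  refine ⟨q, q1, q2, I.comp W.mulVecLin.toAddMonoidHom, fun u => I1 _, fun u => ?_⟩
  simpa [nU_ci, a] using I2 (W *ᵥ u)

/-- **aGN**: the affine vector lemma, around any good point `s` -/
theorem agn (S : Sz V) (Z : AddSubgroup V) {σ : ℝ} (hZ : ∀ v ∈ Z, ∀ c < σ, S.Bd v c → v = 0)
    {μ : Measure (d → ℤ)} [IsProbabilityMeasure μ] (h : QI N μ) (hF : Fi N β) (c : V)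
    (ξ : (d → ℤ) →+ V) {δ ε : ℝ} (hδ : 0 < δ) (hε : 0 ≤ ε)
    (hS : δ ≤ μ.real {u | ∃ a ∈ Z, S.Bd (c + ξ u - a) ε}) (hβ : 100 * β ≤ δ ^ 3)
    (hσ : 400 * ε < σ * δ ^ 3) :
    ∃ q : ℕ, 1 ≤ q ∧ (q : ℝ) ≤ 3 / δ ∧ ∃ I : (d → ℤ) →+ V, (∀ u, I u ∈ Z) ∧
      (∀ u, S.Bd ((q : ℝ) • ξ u - I u) (600 * ε / δ ^ 3 * N (ci u))) ∧
      ∀ s, (∃ a ∈ Z, S.Bd (c + ξ s - a) ε) → ∃ a ∈ Z, ∀ u, S.Bd ((q : ℝ) • (c + ξ u) - (a + I u))
        (3 * ε / δ + 600 * ε / δ ^ 3 * N (ci (u - s))) := by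
  obtain ⟨s, a, ha, hs⟩ := nonempty_of_measureReal_ne_zero (hδ.trans_le hS).ne'
  have := Measure.isProbabilityMeasure_map (μ := μ) (f := (· - s))
    Measurable.of_discrete.aemeasurable
  obtain ⟨q, q1, q2, I, I1, I2⟩ := bd1F S Z hZ (qi_shift h s) hF ξ hδ (ε := 2 * ε)
    (by positivity) (by
      rw [map_real]
      refine hS.trans (measureReal_mono ?_ (measure_ne_top _ _))
      rintro u ⟨b, hb, hu⟩
      refine ⟨b - a, Z.sub_mem hb ha, ?_⟩
      have := S.sub hu hs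
      rw [two_mul, map_sub]
      convert this using 1
      abel) hβ (by linarith)
  have e : 300 * (2 * ε) / δ ^ 3 = 600 * ε / δ ^ 3 := by ring
  rw [e] at I2
  refine ⟨q, q1, q2, I, I1, I2, fun t ⟨b, hb, ht⟩ => ⟨(q : ℝ) • b - I t, Z.sub_mem (by
    rw [Nat.cast_smul_eq_nsmul]; exact Z.nsmul_mem hb q) (I1 t), fun u => ?_⟩⟩
  have := S.add (S.smul (q : ℝ) ht) (I2 (u - t))
  refine S.mono (by convert this using 1; simp only [map_sub, smul_sub, smul_add]; abel) ?_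
  rw [Nat.abs_cast, mul_div_right_comm 3]
  exact add_le_add_left (mul_le_mul_of_nonneg_right q2 hε) _

/-- an affine map that is often small has a small linear part -/
theorem small_lin (S : Sz V) {μ : Measure (d → ℤ)} [IsProbabilityMeasure μ] (h : QI N μ)
    (hF : Fi N β) (c : V) (ξ : (d → ℤ) →+ V) {δ ε : ℝ} (hδ : 0 < δ) (hε : 0 ≤ ε)
    (hS : δ ≤ μ.real {u | S.Bd (c + ξ u) ε}) (hβ : 100 * β ≤ δ ^ 3) (u : d → ℤ) :
    S.Bd (ξ u) (600 * ε / δ ^ 3 * N (ci u)) := by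
  obtain ⟨q, q1, -, I, I1, I2, -⟩ := agn S ⊥ (σ := (400 * ε + 1) / δ ^ 3) (fun v hv _ _ _ => hv)
    h hF c ξ hδ hε (by simpa using hS) hβ (by rw [div_mul_cancel₀ _ (by positivity)]; linarith)
  have q0 : (1 : ℝ) ≤ q := by exact_mod_cast q1
  have := S.smul (q : ℝ)⁻¹ (I2 u)
  rw [AddSubgroup.mem_bot.1 (I1 u), sub_zero, smul_smul, inv_mul_cancel₀ (by positivity),
    one_smul, abs_of_nonneg (by positivity)] at this
  exact S.mono this (mul_le_of_le_one_left (by positivity) (inv_le_one_of_one_le₀ q0))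

/-- a proper affine subspace has small mass -/
theorem mass_lt {μ : Measure (d → ℤ)} [IsProbabilityMeasure μ] (h : QI N μ) (hF : Fi N β)
    (ξ : (d → ℤ) →+ V) (hξ : ξ ≠ 0) (c : V) {δ : ℝ} (hδ : 0 < δ) (hβ : 6 * β ≤ δ ^ 2) :
    μ.real {u | ξ u = c} < δ := by
  by_contra k
  have hS := not_lt.1 k
  have δ1 : δ ≤ 1 := hS.trans measureReal_le_one
  obtain ⟨U, W, a, -, e⟩ := hF
  obtain ⟨j, hj⟩ : ∃ j, ξ (fun i => U i j) ≠ 0 := by
    by_contra n
    refine hξ (AddMonoidHom.ext fun u => ?_)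
    have : u = ∑ j, (W *ᵥ u) j • fun i => U i j := by
      have : u = U *ᵥ (W *ᵥ u) := by rw [mulVec_mulVec, a, one_mulVec]
      refine this.trans (funext fun i => ?_)
      generalize W *ᵥ u = w
      simp [mulVec, dotProduct, mul_comm]
    rw [this, map_sum]
    exact sum_eq_zero fun j _ => by rw [map_zsmul, not_not.1 fun x => n ⟨j, x⟩, smul_zero]
  have K2 : ((⌊2 / δ⌋₊ + 1 : ℕ) : ℝ) * δ ≤ 3 := by
    have := Nat.floor_le (show 0 ≤ 2 / δ by positivity)
    rw [le_div_iff₀ hδ] at this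
    push_cast; linarith
  have e1 : N (ci fun i => U i j) ≤ β :=
    (single_le_sum (f := fun j => N (zc fun i => U i j)) (fun _ _ => apply_nonneg _ _)
      (mem_univ j)).trans e
  obtain ⟨n, n1, -, s, hs, hs'⟩ := collide h hS (K := ⌊2 / δ⌋₊ + 1) (by
    rw [← div_lt_iff₀ hδ]; push_cast; exact Nat.lt_floor_add_one _) (z := fun i => U i j) (by
      refine le_of_mul_le_mul_right ?_ hδ
      have := apply_nonneg N (ci fun i => U i j)
      nlinarith [mul_le_mul_of_nonneg_right K2 this])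
  simp only [Set.mem_setOf_eq, map_add, map_zsmul] at hs hs'
  rw [hs, add_eq_left, ← Int.cast_smul_eq_zsmul ℝ, smul_eq_zero] at hs'
  exact hs'.elim (fun x => by norm_cast at x; omega) hj

/-- local homomorphisms extend, basis free -/
theorem loc_fi {H : Type*} [AddCommGroup H] (hF : Fi N β) (ψ : (d → ℤ) → H) {η : ℝ} (hη : β ≤ η)
    (h : ∀ u v, N (ci u) ≤ η → N (ci v) ≤ η → ψ (u + v) = ψ u + ψ v) :
    ∃ g : (d → ℤ) →+ H, ∀ u, N (ci u) + β ≤ η → g u = ψ u := by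
  obtain ⟨U, W, a, -, c⟩ := hF
  obtain ⟨g, hg⟩ := loc_fine (N := nU N U) (fun u => ψ (U *ᵥ u)) (η := η)
    (by rw [fine_nU]; linarith) fun u v hu hv => by
      rw [nU_ci] at hu hv
      simp only [mulVec_add, h _ _ hu hv]
  refine ⟨g.comp W.mulVecLin.toAddMonoidHom, fun u hu => ?_⟩
  simpa [a] using hg (W *ᵥ u) (by rw [nU_ci, fine_nU, mulVec_mulVec, a, one_mulVec]; linarith)

/-- a homomorphism small on a ball is small, basis free -/
theorem glob_fi (S : Sz V) (hF : Fi N β) (E : (d → ℤ) →+ V) {η ε : ℝ} (h0 : 0 < η)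
    (hη : 2 * β ≤ η) (h : ∀ z, N (ci z) ≤ η → S.Bd (E z) ε) (hε : 0 ≤ ε) (u : d → ℤ) :
    S.Bd (E u) (2 * ε / η * N (ci u)) := by
  obtain ⟨U, W, a, -, c⟩ := hF
  simpa [nU_ci, a] using S.glob (N := nU N U) (E.comp U.mulVecLin.toAddMonoidHom) h0
    (by rw [fine_nU]; linarith) (fun z hz => h _ (by rwa [nU_ci] at hz)) hε (W *ᵥ u)

end vec

/-- **B(d)**, basis free -/
theorem bdF (n : ℕ) : ∃ C : ℕ, ∀ {ι : Fin n → Type} [∀ j, Fintype (ι j)] [∀ j, DecidableEq (ι j)]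
    (N : ∀ j, Seminorm ℝ (ι j → ℝ)) (μ : ∀ j, Measure (ι j → ℤ)) [∀ j, IsProbabilityMeasure (μ j)]
    {V : Type} [AddCommGroup V] [Module ℝ V] (S : Sz V) (Z : AddSubgroup V) {σ δ ε : ℝ}
    (Γ : MultilinearMap ℤ (fun j => ι j → ℤ) V), (∀ j, QI (N j) (μ j)) →
    (∀ v ∈ Z, ∀ c < σ, S.Bd v c → v = 0) → 0 < δ → δ ≤ 1 / 2 → 0 ≤ ε →
    δ ≤ (Measure.pi μ).real {x | ∃ a ∈ Z, S.Bd (Γ x - a) ε} → (∀ j, Fi (N j) (δ ^ C)) →
    ε < σ * δ ^ C → ∃ q : ℕ, 1 ≤ q ∧ (q : ℝ) ≤ 1 / δ ^ C ∧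
      ∃ I : MultilinearMap ℤ (fun j => ι j → ℤ) V, (∀ x, I x ∈ Z) ∧
        ∀ x, S.Bd ((q : ℝ) • Γ x - I x) (ε / δ ^ C * ∏ j, N j (ci (x j))) := by
  obtain ⟨C, hC⟩ := bd n
  refine ⟨C, fun {ι} _ _ N μ _ V _ _ S Z σ δ ε Γ hq hZ h0 h1 hε h hf hσ => ?_⟩
  choose U W a b c using hf
  have := fun j => Measure.isProbabilityMeasure_map (μ := μ j) (f := (W j *ᵥ ·))
    Measurable.of_discrete.aemeasurable
  obtain ⟨q, q1, q2, I, I1, I2⟩ := hC (fun j => nU (N j) (U j)) (fun j => (μ j).map (W j *ᵥ ·)) S Z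
    (Γ.compLinearMap fun j => (U j).mulVecLin) (fun j => qi_nU (hq j) (a j) (b j)) hZ h0 h1 hε (by
      rw [← Measure.pi_map_pi (fun j => Measurable.of_discrete.aemeasurable),
        map_measureReal_apply Measurable.of_discrete MeasurableSet.of_discrete]
      refine h.trans_eq (congrArg _ (Set.ext fun x => ?_))
      simp [a]) (fun j => by rw [fine_nU]; exact c j) hσ
  refine ⟨q, q1, q2, I.compLinearMap fun j => (W j).mulVecLin, fun x => I1 _, fun x => ?_⟩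
  simpa [nU_ci, a] using I2 fun j => W j *ᵥ x j

end Crest.Agent.N49.Po
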