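import Crest.Agent.N49.Po.Poi

/-!
# Row 49 (helper83): theta functions, smoothing, Banaszczyk's tail bound, transference

`th M θ = ∑ₙ gs M (n - θ)`, `thc M θ ξ = ∑ₙ gs M (n - θ) e(ξ·n)`, `dt M = det M ^ (-1/2)`,
`bz d R = √2 ^ d * exp (-π R / 2)`.
-/

set_option autoImplicit false

open Matrix MeasureTheory

noncomputable section

namespace Crest.Agent.N49.Po

variable {d : Type} [Fintype d] {M M' : Matrix d d ℝ}

/-- the theta function -/
def th (M : Matrix d d ℝ) (θ : d → ℝ) : ℝ := ∑' n : d → ℤ, gs M (zc n - θ)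

/-- the modulated theta function -/
def thc (M : Matrix d d ℝ) (θ ξ : d → ℝ) : ℂ :=
  ∑' n : d → ℤ, (gs M (zc n - θ) : ℂ) * ee (ξ ⬝ᵥ zc n)

/-- Banaszczyk's factor -/
def bz (d : Type) [Fintype d] (R : ℝ) : ℝ := √2 ^ Fintype.card d * Real.exp (-(Real.pi * R / 2))

theorem bz_pos (R : ℝ) : 0 < bz d R := by unfold bz; positivity

theorem bz_anti {R R' : ℝ} (h : R ≤ R') : bz d R' ≤ bz d R := by
  unfold bz
  gcongr

/-- `bz d (d + k) ≤ 2 ^ (-2 k)`, in the form with a real bound -/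
theorem bz_le {R L : ℝ} (h : Fintype.card d + L ≤ R) (hL : 0 ≤ L) : bz d R ≤ Real.exp (-L) := by
  have h1 : √2 ≤ Real.exp 1 := by
    rw [Real.sqrt_le_iff]
    exact ⟨(Real.exp_pos _).le, by nlinarith [Real.add_one_le_exp 1]⟩
  have h2 : √2 ^ Fintype.card d ≤ Real.exp (Fintype.card d) := by
    rw [← Real.exp_one_pow]; gcongr
  refine (mul_le_mul_of_nonneg_right h2 (Real.exp_pos _).le).trans ?_
  rw [← Real.exp_add, Real.exp_le_exp]
  nlinarith [Real.pi_gt_three, (Nat.cast_nonneg (Fintype.card d) : (0 : ℝ) ≤ _)]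

theorem thc_zero_right (M : Matrix d d ℝ) (θ : d → ℝ) : thc M θ 0 = th M θ := by
  simp [thc, th, ee_zero, Complex.ofReal_tsum]

theorem th_nonneg (M : Matrix d d ℝ) (θ : d → ℝ) : 0 ≤ th M θ := tsum_nonneg fun _ => (gs_pos _ _).le

theorem th_add_zc (M : Matrix d d ℝ) (θ : d → ℝ) (k : d → ℤ) : th M (θ + zc k) = th M θ := by
  rw [th, th, ← (Equiv.addRight k).tsum_eq]
  simp [zc_add]

theorem th_neg (M : Matrix d d ℝ) (θ : d → ℝ) : th M (-θ) = th M θ := by
  rw [th, th, ← (Equiv.neg _).tsum_eq]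
  refine tsum_congr fun n => ?_
  rw [Equiv.neg_apply, zc_neg, ← gs_neg]
  congr 1
  abel

variable [DecidableEq d]

/-- `det M ^ (-1/2)` -/
def dt (M : Matrix d d ℝ) : ℝ := (√M.det)⁻¹

theorem dt_pos (hM : M.PosDef) : 0 < dt M := inv_pos.2 (Real.sqrt_pos.2 hM.det_pos)

theorem dt_inv (M : Matrix d d ℝ) : dt M⁻¹ = (dt M)⁻¹ := by
  rw [dt, dt, det_nonsing_inv, Ring.inverse_eq_inv', Real.sqrt_inv]

theorem inv_inv' (hM : M.PosDef) : M⁻¹⁻¹ = M := nonsing_inv_nonsing_inv _ hM.det_pos.ne'.isUnit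

theorem dt_smul {t : ℝ} (ht : 0 ≤ t) (M : Matrix d d ℝ) :
    dt (t • M) = (√t)⁻¹ ^ Fintype.card d * dt M := by
  rw [dt, dt, det_smul, Real.sqrt_mul (by positivity), mul_inv, inv_pow]
  congr 2
  rw [Real.sqrt_eq_iff_mul_self_eq (by positivity) (by positivity), ← mul_pow,
    Real.mul_self_sqrt ht]

theorem inv_smul' (hM : M.PosDef) {t : ℝ} (ht : t ≠ 0) : (t • M)⁻¹ = t⁻¹ • M⁻¹ := by
  refine inv_eq_left_inv ?_
  rw [Matrix.smul_mul, Matrix.mul_smul, smul_smul, inv_mul_cancel₀ ht, one_smul,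
    nonsing_inv_mul _ hM.det_pos.ne'.isUnit]

theorem thc_eq (hM : M.PosDef) (θ ξ : d → ℝ) : thc M θ ξ =
    dt M * ∑' m : d → ℤ, (gs M⁻¹ (zc m - ξ) : ℂ) * ee ((ξ - zc m) ⬝ᵥ θ) := poisson_gs hM θ ξ

theorem gs_le_th (hM : M.PosDef) (θ : d → ℝ) (n : d → ℤ) : gs M (zc n - θ) ≤ th M θ :=
  (summable_gs hM θ).le_tsum n fun _ _ => (gs_pos _ _).le

theorem th_pos (hM : M.PosDef) (θ : d → ℝ) : 0 < th M θ := (gs_pos _ _).trans_le (gs_le_th hM θ 0)

theorem one_le_th (hM : M.PosDef) : 1 ≤ th M 0 := by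
  simpa [zc_zero, gs_zero] using gs_le_th hM 0 0

theorem sum_le_th (hM : M.PosDef) (θ : d → ℝ) (S : Finset (d → ℤ)) :
    ∑ n ∈ S, gs M (zc n - θ) ≤ th M θ :=
  (summable_gs hM θ).sum_le_tsum S fun _ _ => (gs_pos _ _).le

/-- weighted sums -/
theorem norm_tsum_le (hM : M.PosDef) (θ : d → ℝ) {f : (d → ℤ) → ℂ} {g : (d → ℤ) → ℝ} {B : ℝ}
    (hf : ∀ n, ‖f n‖ ≤ g n) (hg : ∀ n, g n ≤ B) :
    ‖∑' n : d → ℤ, (gs M (zc n - θ) : ℂ) * f n‖ ≤ ∑' n : d → ℤ, gs M (zc n - θ) * g n := by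
  refine tsum_of_norm_bounded (Summable.hasSum ?_) fun n => ?_
  · exact Summable.of_nonneg_of_le
      (fun n => mul_nonneg (gs_pos _ _).le ((norm_nonneg _).trans (hf n)))
      (fun n => mul_le_mul_of_nonneg_left (hg n) (gs_pos _ _).le) ((summable_gs hM θ).mul_right B)
  · rw [norm_mul, Complex.norm_real, Real.norm_of_nonneg (gs_pos _ _).le]
    exact mul_le_mul_of_nonneg_left (hf n) (gs_pos _ _).le

theorem norm_thc_le_th (hM : M.PosDef) (θ ξ : d → ℝ) : ‖thc M θ ξ‖ ≤ th M θ := by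
  simpa [th, thc] using norm_tsum_le hM θ (g := fun _ => 1) (fun n => (norm_ee (ξ ⬝ᵥ zc n)).le)
    fun _ => le_rfl

theorem norm_thc_le (hM : M.PosDef) (θ ξ : d → ℝ) : ‖thc M θ ξ‖ ≤ dt M * th M⁻¹ ξ := by
  rw [thc_eq hM, norm_mul, Complex.norm_real, Real.norm_of_nonneg (dt_pos hM).le]
  refine mul_le_mul_of_nonneg_left ?_ (dt_pos hM).le
  simpa [th] using norm_tsum_le hM.inv ξ (g := fun _ => 1)
    (fun m => (norm_ee ((ξ - zc m) ⬝ᵥ θ)).le) fun _ => le_rfl

/-- centred Gaussians have a positive Fourier transform on the lattice -/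
theorem thc_zero_left (hM : M.PosDef) (ξ : d → ℝ) : thc M 0 ξ = (dt M * th M⁻¹ ξ : ℝ) := by
  simp [thc_eq hM, th, ee_zero, Complex.ofReal_tsum]

theorem th_dual (hM : M.PosDef) : th M 0 = dt M * th M⁻¹ 0 := by
  exact_mod_cast (thc_zero_right M 0).symm.trans (thc_zero_left hM 0)

theorem th_le (hM : M.PosDef) (θ : d → ℝ) : th M θ ≤ th M 0 := by
  have := norm_thc_le hM θ 0
  rwa [thc_zero_right, Complex.norm_real, Real.norm_of_nonneg (th_nonneg _ _), ← th_dual hM] at this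

/-- the Fourier series of the periodised Gaussian -/
theorem th_eq (hM : M.PosDef) (θ : d → ℝ) :
    (th M θ : ℂ) = dt M * ∑' m : d → ℤ, (gs M⁻¹ (zc m) : ℂ) * ee (-(zc m ⬝ᵥ θ)) := by
  simp [← thc_zero_right, thc_eq hM]

theorem th_ge (hM : M.PosDef) (θ : d → ℝ) : gs M θ * th M 0 ≤ th M θ := by
  have h1 : 2 * th M θ = ∑' n : d → ℤ, (gs M (zc n - θ) + gs M (zc n - -θ)) := by
    rw [(summable_gs hM θ).tsum_add (summable_gs hM (-θ)), two_mul]
    exact congrArg _ (th_neg M θ).symm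
  have h2 : ∑' n : d → ℤ, 2 * gs M θ * gs M (zc n - 0) ≤ 2 * th M θ := by
    rw [h1]
    refine ((summable_gs hM 0).mul_left _).tsum_le_tsum (fun n => ?_)
      ((summable_gs hM θ).add (summable_gs hM (-θ)))
    have e := qf_par M (zc n) θ
    have k := Real.exp_pos (-(Real.pi * qf M (zc n - θ)) / 2)
    have k' := Real.exp_pos (-(Real.pi * qf M (zc n + θ)) / 2)
    have e2 : gs M θ * gs M (zc n) = Real.exp (-(Real.pi * qf M (zc n - θ)) / 2) *
        Real.exp (-(Real.pi * qf M (zc n + θ)) / 2) := by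
      rw [gs, gs, ← Real.exp_add, ← Real.exp_add]
      congr 1
      linear_combination (Real.pi / 2) * e
    have e3 : ∀ x, gs M x = Real.exp (-(Real.pi * qf M x) / 2) ^ 2 := fun x => by
      rw [gs, ← Real.exp_nat_mul]; congr 1; push_cast; ring
    rw [sub_zero, sub_neg_eq_add, mul_assoc, e2, e3 (zc n - θ), e3 (zc n + θ)]
    nlinarith [sq_nonneg (Real.exp (-(Real.pi * qf M (zc n - θ)) / 2) -
      Real.exp (-(Real.pi * qf M (zc n + θ)) / 2))]
  rw [tsum_mul_left] at h2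
  change 2 * gs M θ * th M 0 ≤ _ at h2
  linarith

theorem th_mono (hM : M.PosDef) (hM' : M'.PosDef) (h : ∀ x, qf M x ≤ qf M' x) (θ : d → ℝ) :
    th M' θ ≤ th M θ :=
  (summable_gs hM' θ).tsum_le_tsum (fun _ => Real.exp_le_exp.2
    (neg_le_neg (mul_le_mul_of_nonneg_left (h _) Real.pi_pos.le))) (summable_gs hM θ)

theorem th_scale (hM : M.PosDef) {t : ℝ} (h0 : 0 < t) (h1 : t ≤ 1) (θ : d → ℝ) :
    th (t • M) θ ≤ (√t)⁻¹ ^ Fintype.card d * th M 0 := by
  have hM' := hM.smul h0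
  refine (th_le hM' θ).trans ?_
  rw [th_dual hM', th_dual hM, dt_smul h0.le, inv_smul' hM h0.ne', mul_assoc]
  refine mul_le_mul_of_nonneg_left (mul_le_mul_of_nonneg_left (th_mono hM.inv
    (hM.inv.smul (inv_pos.2 h0)) (fun x => ?_) 0) (dt_pos hM).le) (by positivity)
  rw [qf_smul]
  exact le_mul_of_one_le_left (qf_nonneg hM.inv x) ((one_le_inv₀ h0).2 h1)

/-- **Banaszczyk's tail bound** -/
theorem tail (hM : M.PosDef) (θ : d → ℝ) (R : ℝ) {g : (d → ℤ) → ℝ} (h0 : ∀ n, 0 ≤ g n)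
    (h1 : ∀ n, g n ≤ 1) (h : ∀ n, qf M (zc n - θ) < R → g n = 0) :
    ∑' n : d → ℤ, gs M (zc n - θ) * g n ≤ bz d R * th M 0 := by
  have hM' := hM.smul (show (0 : ℝ) < 2⁻¹ by norm_num)
  have h2 := th_scale hM (show (0 : ℝ) < 2⁻¹ by norm_num) (by norm_num) θ
  rw [Real.sqrt_inv, inv_inv] at h2
  have k : ∀ n, gs M (zc n - θ) * g n ≤
      Real.exp (-(Real.pi * R / 2)) * gs ((2⁻¹ : ℝ) • M) (zc n - θ) := fun n => by
    rcases lt_or_ge (qf M (zc n - θ)) R with a | a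
    · rw [h n a, mul_zero]; exact (mul_pos (Real.exp_pos _) (gs_pos _ _)).le
    · refine (mul_le_of_le_one_right (gs_pos _ _).le (h1 n)).trans ?_
      rw [gs, gs, qf_smul, ← Real.exp_add, Real.exp_le_exp]
      nlinarith [Real.pi_pos]
  have s2 := (summable_gs hM' θ).mul_left (Real.exp (-(Real.pi * R / 2)))
  refine ((Summable.of_nonneg_of_le (fun n => mul_nonneg (gs_pos _ _).le (h0 n)) k s2).tsum_le_tsum
    k s2).trans ?_
  rw [tsum_mul_left, bz, mul_comm (√2 ^ _), mul_assoc]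
  exact mul_le_mul_of_nonneg_left h2 (Real.exp_pos _).le

theorem th_far (hM : M.PosDef) {θ : d → ℝ} {R : ℝ} (h : ∀ n, R ≤ qf M (zc n - θ)) :
    th M θ ≤ bz d R * th M 0 := by
  simpa [th] using tail hM θ R (g := fun _ => 1) (fun _ => zero_le_one) (fun _ => le_rfl)
    fun n a => absurd (h n) (not_le.2 a)

/-- truncation of a weighted theta sum -/
theorem trunc (hM : M.PosDef) (θ : d → ℝ) {R : ℝ} {S : Finset (d → ℤ)}
    (hS : ∀ n, qf M (zc n - θ) < R → n ∈ S) {f : (d → ℤ) → ℂ} (hf : ∀ n, ‖f n‖ ≤ 1) :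
    ‖∑' n : d → ℤ, (gs M (zc n - θ) : ℂ) * f n - ∑ n ∈ S, (gs M (zc n - θ) : ℂ) * f n‖ ≤
      bz d R * th M 0 := by
  classical
  have e : ∑' n : d → ℤ, (gs M (zc n - θ) : ℂ) * f n - ∑ n ∈ S, (gs M (zc n - θ) : ℂ) * f n =
      ∑' n : d → ℤ, (gs M (zc n - θ) : ℂ) * if n ∈ S then 0 else f n := by
    have e0 : ∑' n : d → ℤ, (if n ∈ S then (gs M (zc n - θ) : ℂ) * f n else 0) =
        ∑ n ∈ S, (gs M (zc n - θ) : ℂ) * f n :=
      (tsum_eq_sum (s := S) fun n hn => if_neg hn).trans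
        (Finset.sum_congr rfl fun n hn => if_pos hn)
    rw [← e0, ← Summable.tsum_sub (summable_gs_mul hM θ hf)
        (summable_of_ne_finset_zero (s := S) fun n hn => if_neg hn)]
    exact tsum_congr fun n => by split_ifs <;> simp
  rw [e]
  refine (norm_tsum_le hM θ (g := fun n => if n ∈ S then 0 else 1) (B := 1) (fun n => ?_)
    fun n => ?_).trans (tail hM θ R (fun n => ?_) (fun n => ?_) fun n a => if_pos (hS n a))
  all_goals split_ifs <;> simp [hf]

/-- truncated Poisson summation -/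
theorem thc_trunc (hM : M.PosDef) (θ ξ : d → ℝ) {R : ℝ} {S : Finset (d → ℤ)}
    (hS : ∀ m, qf M⁻¹ (zc m - ξ) < R → m ∈ S) :
    ‖thc M θ ξ - dt M * ∑ m ∈ S, (gs M⁻¹ (zc m - ξ) : ℂ) * ee ((ξ - zc m) ⬝ᵥ θ)‖ ≤
      bz d R * th M 0 := by
  rw [thc_eq hM, ← mul_sub, norm_mul, Complex.norm_real, Real.norm_of_nonneg (dt_pos hM).le,
    th_dual hM, mul_left_comm]
  exact mul_le_mul_of_nonneg_left (trunc hM.inv ξ hS fun _ => (norm_ee _).le) (dt_pos hM).le

/-- a biased character is close to the dual lattice -/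
theorem exists_dual (hM : M.PosDef) {θ ξ : d → ℝ} {R : ℝ} (h : bz d R * th M 0 < ‖thc M θ ξ‖) :
    ∃ m : d → ℤ, qf M⁻¹ (zc m - ξ) < R := by
  by_contra a
  have := thc_trunc hM θ ξ (R := R) (S := ∅) fun m hm => absurd ⟨m, hm⟩ a
  simp only [Finset.sum_empty, mul_zero, sub_zero] at this
  exact absurd h (not_lt.2 this)

/-- no short vector: the theta constant is almost `1` -/
theorem th_short (hM : M.PosDef) {R : ℝ} (h : ∀ n : d → ℤ, n ≠ 0 → R ≤ qf M (zc n)) :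
    (1 - bz d R) * th M 0 ≤ 1 := by
  have := trunc hM 0 (R := R) (S := {0}) (f := fun _ => 1)
    (fun n a => by by_contra b; exact absurd (h n (by simpa using b)) (by simpa using a))
    fun _ => by simp
  simp only [mul_one, Finset.sum_singleton, zc_zero, sub_zero, gs_zero] at this
  rw [← Complex.ofReal_tsum, ← Complex.ofReal_sub, Complex.norm_real, Real.norm_eq_abs] at this
  have e : ∑' n : d → ℤ, gs M (zc n) = th M 0 := by simp [th]
  rw [e] at this
  linarith [le_abs_self (th M 0 - 1)]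

/-- smoothing: the periodised Gaussian is almost constant -/
theorem smooth (hM : M.PosDef) (θ : d → ℝ) : |th M θ - dt M| ≤ dt M * (th M⁻¹ 0 - 1) := by
  classical
  have s1 := summable_gs_mul hM.inv 0 (f := fun m => ee (-(zc m ⬝ᵥ θ))) fun _ => (norm_ee _).le
  have s2 := summable_gs hM.inv 0
  have e : ((th M θ - dt M : ℝ) : ℂ) = dt M * ∑' m : d → ℤ, (gs M⁻¹ (zc m - 0) : ℂ) *
      if m = 0 then 0 else ee (-(zc m ⬝ᵥ θ)) := by
    have := s1.tsum_eq_add_tsum_ite 0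
    simp only [sub_zero, zc_zero, gs_zero, zero_dotProduct, neg_zero, ee_zero] at this
    push_cast
    rw [th_eq hM, this]
    simp [mul_add]
  have e2 : ∑' m : d → ℤ, gs M⁻¹ (zc m - 0) * (if m = 0 then 0 else 1) = th M⁻¹ 0 - 1 := by
    rw [th, s2.tsum_eq_add_tsum_ite 0]
    simp [zc_zero, gs_zero]
  rw [← Real.norm_eq_abs, ← Complex.norm_real, e, norm_mul, Complex.norm_real,
    Real.norm_of_nonneg (dt_pos hM).le, ← e2]
  refine mul_le_mul_of_nonneg_left (norm_tsum_le hM.inv 0 (B := 1) (fun n => ?_) fun n => ?_)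
    (dt_pos hM).le
  all_goals split_ifs <;> simp [norm_ee]

theorem smooth_short (hM : M.PosDef) {R : ℝ} (h : ∀ m : d → ℤ, m ≠ 0 → R ≤ qf M⁻¹ (zc m))
    (hb : bz d R ≤ 1 / 2) (θ : d → ℝ) : |th M θ - dt M| ≤ 2 * bz d R * dt M := by
  have h1 := th_short hM.inv h
  have h2 := one_le_th hM.inv
  have h3 : th M⁻¹ 0 - 1 ≤ 2 * bz d R := by nlinarith [bz_pos (d := d) R]
  exact (smooth hM θ).trans (by nlinarith [dt_pos hM])

/-- **transference**: no short dual vector implies a small covering radius -/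
theorem cover (hM : M.PosDef) {R : ℝ} (h : ∀ m : d → ℤ, m ≠ 0 → R ≤ qf M⁻¹ (zc m))
    (hb : bz d R ≤ 1 / 4) (θ : d → ℝ) : ∃ n : d → ℤ, qf M (zc n - θ) < R := by
  by_contra a
  have h1 := th_far hM (θ := θ) (R := R) fun n => not_lt.1 fun b => a ⟨n, b⟩
  have h2 := abs_le.1 (smooth_short hM h (by linarith) θ)
  have h3 := abs_le.1 (smooth_short hM h (by linarith) 0)
  have := dt_pos hM
  have := bz_pos (d := d) R
  nlinarith [mul_le_mul_of_nonneg_right hb (th_nonneg M 0), mul_le_mul_of_nonneg_right hb (dt_pos hM).le]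

/-- lattice points in an ellipsoid: upper bound -/
theorem card_le (hM : M.PosDef) (θ : d → ℝ) {R : ℝ} {S : Finset (d → ℤ)}
    (hS : ∀ n ∈ S, qf M (zc n - θ) ≤ R) : (S.card : ℝ) ≤ Real.exp (Real.pi * R) * th M θ := by
  have h : S.card * Real.exp (-(Real.pi * R)) ≤ th M θ := by
    refine le_trans ?_ (sum_le_th hM θ S)
    rw [← nsmul_eq_mul]
    exact Finset.card_nsmul_le_sum _ _ _ fun n hn => Real.exp_le_exp.2
      (neg_le_neg (mul_le_mul_of_nonneg_left (hS n hn) Real.pi_pos.le))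
  rwa [Real.exp_neg, mul_inv_le_iff₀ (Real.exp_pos _), mul_comm] at h

/-- lattice points in an ellipsoid: lower bound -/
theorem le_card (hM : M.PosDef) (θ : d → ℝ) {R : ℝ} {S : Finset (d → ℤ)}
    (hS : ∀ n, qf M (zc n - θ) < R → n ∈ S) : th M θ - bz d R * th M 0 ≤ S.card := by
  have := trunc hM θ hS (f := fun _ => 1) fun _ => by simp
  simp only [mul_one] at this
  rw [← Complex.ofReal_tsum, ← Complex.ofReal_sum, ← Complex.ofReal_sub, Complex.norm_real,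
    Real.norm_eq_abs] at this
  have h2 : ∑ n ∈ S, gs M (zc n - θ) ≤ S.card := by
    simpa using Finset.sum_le_card_nsmul S _ 1 fun n _ => gs_le_one hM (zc n - θ)
  have h3 := le_abs_self (∑' n : d → ℤ, gs M (zc n - θ) - ∑ n ∈ S, gs M (zc n - θ))
  rw [th]
  linarith

theorem finite_ell (hM : M.PosDef) (θ : d → ℝ) (R : ℝ) :
    {n : d → ℤ | qf M (zc n - θ) ≤ R}.Finite := by
  have h := (summable_gs hM θ).tendsto_cofinite_zero.eventually
    (gt_mem_nhds (Real.exp_pos (-(Real.pi * R))))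
  refine (Filter.eventually_cofinite.1 h).subset fun n hn => not_lt.2 ?_
  exact Real.exp_le_exp.2 (neg_le_neg (mul_le_mul_of_nonneg_left hn Real.pi_pos.le))

theorem dt_le_th (hM : M.PosDef) : dt M ≤ th M 0 := by
  rw [th_dual hM]
  exact le_mul_of_one_le_right (dt_pos hM).le (one_le_th hM.inv)

end Crest.Agent.N49.Po

end
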