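import Crest.Agent.N49.Po.Mix

/-!
# Row 49 (helper83): one level of the Master lemma

`X` = configurations of the lower levels with a weight `w`, the new level is a Gaussian on `ℤ^d` with
centre `Θ x`.
-/

set_option autoImplicit false
set_option linter.unusedSectionVars false

open Matrix MeasureTheory

noncomputable section

namespace Crest.Agent.N49.Po

variable {d : Type} [Fintype d] [DecidableEq d] {M : Matrix d d ℝ} {X : Type*} {w : X → ℝ}

theorem summable_wt (hw0 : ∀ x, 0 ≤ w x) (hw : Summable w) {f : X → ℂ} {B : ℝ}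
    (hf : ∀ x, ‖f x‖ ≤ B) : Summable fun x => (w x : ℂ) * f x := by
  refine Summable.of_norm_bounded (hw.mul_right B) fun x => ?_
  rw [norm_mul, Complex.norm_real, Real.norm_of_nonneg (hw0 x)]
  exact mul_le_mul_of_nonneg_left (hf x) (hw0 x)

theorem norm_wt_le (hw0 : ∀ x, 0 ≤ w x) (hw : Summable w) {f : X → ℂ} {B : ℝ}
    (hf : ∀ x, ‖f x‖ ≤ B) : ‖∑' x, (w x : ℂ) * f x‖ ≤ B * ∑' x, w x := by
  rw [mul_comm, ← tsum_mul_right]
  refine tsum_of_norm_bounded (hw.mul_right B).hasSum fun x => ?_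
  rw [norm_mul, Complex.norm_real, Real.norm_of_nonneg (hw0 x)]
  exact mul_le_mul_of_nonneg_left (hf x) (hw0 x)

/-- the weight of the extended system is summable -/
theorem summable_ext (hM : M.PosDef) (hw0 : ∀ x, 0 ≤ w x) (hw : Summable w) (Θ : X → d → ℝ) :
    Summable fun p : X × (d → ℤ) => w p.1 * gs M (zc p.2 - Θ p.1) := by
  refine (summable_prod_of_nonneg fun p => mul_nonneg (hw0 _) (gs_pos _ _).le).2
    ⟨fun x => (summable_gs hM (Θ x)).mul_left (w x), ?_⟩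
  refine Summable.of_nonneg_of_le (fun x => tsum_nonneg fun _ => mul_nonneg (hw0 _) (gs_pos _ _).le)
    (fun x => ?_) (hw.mul_right (th M 0))
  simp only [tsum_mul_left]
  exact mul_le_mul_of_nonneg_left (th_le hM (Θ x)) (hw0 x)

/-- sum out the new level -/
theorem tsum_ext (hM : M.PosDef) (hw0 : ∀ x, 0 ≤ w x) (hw : Summable w) (Θ : X → d → ℝ)
    {F : X × (d → ℤ) → ℂ} {B : ℝ} (hF : ∀ p, ‖F p‖ ≤ B) :
    ∑' p : X × (d → ℤ), ((w p.1 * gs M (zc p.2 - Θ p.1) : ℝ) : ℂ) * F p =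
      ∑' x, (w x : ℂ) * ∑' n : d → ℤ, (gs M (zc n - Θ x) : ℂ) * F (x, n) := by
  rw [(summable_wt (fun p => mul_nonneg (hw0 _) (gs_pos _ _).le) (summable_ext hM hw0 hw Θ)
    hF).tsum_prod]
  refine tsum_congr fun x => ?_
  rw [← tsum_mul_left]
  exact tsum_congr fun n => by push_cast; ring

theorem tsum_ext_real (hM : M.PosDef) (hw0 : ∀ x, 0 ≤ w x) (hw : Summable w) (Θ : X → d → ℝ) :
    ∑' p : X × (d → ℤ), w p.1 * gs M (zc p.2 - Θ p.1) = ∑' x, w x * th M (Θ x) := by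
  rw [(summable_ext hM hw0 hw Θ).tsum_prod]
  simp only [tsum_mul_left, th]

/-- Poisson summation in the new level, averaged over the lower levels -/
theorem pois_avg' (hM : M.PosDef) (hw0 : ∀ x, 0 ≤ w x) (hw : Summable w) (Θ ξ : X → d → ℝ)
    {f : X → ℂ} {B : ℝ} (hf : ∀ x, ‖f x‖ ≤ B) :
    ∑' x, (w x : ℂ) * (f x * thc M (Θ x) (ξ x)) = dt M * ∑' m : d → ℤ,
      ∑' x, (w x : ℂ) * (f x * (gs M⁻¹ (zc m - ξ x) * ee ((ξ x - zc m) ⬝ᵥ Θ x))) := by
  have s := summable_wt (fun p => mul_nonneg (hw0 _) (gs_pos _ _).le)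
    (summable_ext hM.inv hw0 hw ξ) (B := B)
    (f := fun p : X × (d → ℤ) => f p.1 * ee ((ξ p.1 - zc p.2) ⬝ᵥ Θ p.1))
    fun p => by rw [norm_mul, norm_ee, mul_one]; exact hf _
  have e := Summable.tsum_comm (f := fun (x : X) (m : d → ℤ) =>
    (w x : ℂ) * (f x * (gs M⁻¹ (zc m - ξ x) * ee ((ξ x - zc m) ⬝ᵥ Θ x))))
    (s.congr fun p => by simp only [Function.uncurry]; push_cast; ring)
  rw [e, ← tsum_mul_left]
  refine tsum_congr fun x => ?_
  rw [thc_eq hM, tsum_mul_left, tsum_mul_left]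
  ring

theorem pois_avg (hM : M.PosDef) (hw0 : ∀ x, 0 ≤ w x) (hw : Summable w) (Θ : X → d → ℝ)
    (ξ : d → ℝ) {f : X → ℂ} {B : ℝ} (hf : ∀ x, ‖f x‖ ≤ B) :
    ∑' x, (w x : ℂ) * (f x * thc M (Θ x) ξ) = dt M * ∑' m : d → ℤ, (gs M⁻¹ (zc m - ξ) : ℂ) *
      ∑' x, (w x : ℂ) * (f x * ee ((ξ - zc m) ⬝ᵥ Θ x)) := by
  rw [pois_avg' hM hw0 hw Θ (fun _ => ξ) hf]
  congr 1
  refine tsum_congr fun m => ?_
  rw [← tsum_mul_left]
  exact tsum_congr fun x => by ring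

/-- a dual sum whose short nonzero terms are small -/
theorem dual_sum (hM : M.PosDef) {a : (d → ℤ) → ℂ} {R τ B : ℝ} (hτ : 0 ≤ τ)
    (hB : ∀ m, ‖a m‖ ≤ B) (h : ∀ m, m ≠ 0 → qf M (zc m) < R → ‖a m‖ ≤ τ) :
    ‖∑' m : d → ℤ, (gs M (zc m) : ℂ) * a m - a 0‖ ≤ τ * (th M 0 - 1) + B * (bz d R * th M 0) := by
  classical
  have B0 : 0 ≤ B := (norm_nonneg _).trans (hB 0)
  have s1 := summable_gs_mul hM 0 hB
  have s2 := summable_gs hM 0
  have t := tail hM 0 R (g := fun n => if qf M (zc n) < R then 0 else 1)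
    (fun n => by split_ifs <;> simp) (fun n => by split_ifs <;> simp)
    fun n b => if_pos (by simpa using b)
  simp only [sub_zero] at s1 s2 t
  have e1 : th M 0 - 1 = ∑' m : d → ℤ, if m = 0 then 0 else gs M (zc m) := by
    simp only [th, sub_zero]
    rw [s2.tsum_eq_add_tsum_ite 0, zc_zero, gs_zero, add_sub_cancel_left]
  have s3 : Summable fun m : d → ℤ => if m = 0 then 0 else gs M (zc m) :=
    .of_nonneg_of_le (fun m => by split_ifs; exacts [le_rfl, (gs_pos _ _).le])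
      (fun m => by split_ifs; exacts [(gs_pos _ _).le, le_rfl]) s2
  have s4 : Summable fun m : d → ℤ => gs M (zc m) * if qf M (zc m) < R then 0 else 1 :=
    .of_nonneg_of_le (fun m => by split_ifs <;> simp [(gs_pos _ _).le])
      (fun m => by split_ifs <;> simp [(gs_pos _ _).le]) s2
  rw [s1.tsum_eq_add_tsum_ite 0, zc_zero, gs_zero, Complex.ofReal_one, one_mul,
    add_sub_cancel_left, e1]
  refine (tsum_of_norm_bounded ((s3.hasSum.mul_left τ).add (s4.hasSum.mul_left B))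
    fun m => ?_).trans (add_le_add le_rfl (mul_le_mul_of_nonneg_left t B0))
  have g := gs_pos M (zc m)
  by_cases h0 : m = 0
  · simp only [if_pos h0, norm_zero]
    positivity
  · simp only [if_neg h0, norm_mul, Complex.norm_real, Real.norm_of_nonneg g.le]
    split_ifs with h1
    · nlinarith [h m h0 h1]
    · nlinarith [hB m]

/-- **Master lemma, one level**: if no short nonzero dual vector is biased against `f`, the new level
contributes its covolume -/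
theorem master1 (hM : M.PosDef) (hw0 : ∀ x, 0 ≤ w x) (hw : Summable w) (Θ : X → d → ℝ)
    {f : X → ℂ} (hf : ∀ x, ‖f x‖ ≤ 1) {R τ : ℝ} (hτ : 0 ≤ τ)
    (h : ∀ m : d → ℤ, m ≠ 0 → qf M⁻¹ (zc m) < R →
      ‖∑' x, (w x : ℂ) * (f x * ee (-(zc m ⬝ᵥ Θ x)))‖ ≤ τ * ∑' x, w x) :
    ‖∑' x, (w x : ℂ) * (f x * th M (Θ x)) - dt M * ∑' x, (w x : ℂ) * f x‖ ≤
      dt M * ((τ * (th M⁻¹ 0 - 1) + bz d R * th M⁻¹ 0) * ∑' x, w x) := by
  have e := pois_avg hM hw0 hw Θ 0 hf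
  simp only [thc_zero_right, sub_zero, zero_sub, neg_dotProduct] at e
  have k := dual_sum hM.inv (B := 1 * ∑' x, w x) (mul_nonneg hτ (tsum_nonneg hw0))
    (fun m => norm_wt_le hw0 hw fun x => by rw [norm_mul, norm_ee, mul_one]; exact hf x) h
  simp only [zc_zero, zero_dotProduct, neg_zero, ee_zero, mul_one] at k
  rw [e, ← mul_sub, norm_mul, Complex.norm_real, Real.norm_of_nonneg (dt_pos hM).le]
  exact mul_le_mul_of_nonneg_left (k.trans (le_of_eq (by ring))) (dt_pos hM).le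

/-- partition functions -/
theorem master1_real (hM : M.PosDef) (hw0 : ∀ x, 0 ≤ w x) (hw : Summable w) (Θ : X → d → ℝ)
    {R τ : ℝ} (hτ : 0 ≤ τ) (h : ∀ m : d → ℤ, m ≠ 0 → qf M⁻¹ (zc m) < R →
      ‖∑' x, (w x : ℂ) * ee (-(zc m ⬝ᵥ Θ x))‖ ≤ τ * ∑' x, w x) :
    |∑' x, w x * th M (Θ x) - dt M * ∑' x, w x| ≤
      dt M * ((τ * (th M⁻¹ 0 - 1) + bz d R * th M⁻¹ 0) * ∑' x, w x) := by
  have k := master1 hM hw0 hw Θ (f := fun _ => 1) (fun _ => norm_one.le) hτ (by simpa using h)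
  simp only [one_mul, mul_one] at k
  rw [← Real.norm_eq_abs, ← Complex.norm_real]
  simpa [Complex.ofReal_tsum] using k

/-- a deviation produces a short biased dual vector -/
theorem exists_bias (hM : M.PosDef) (hw0 : ∀ x, 0 ≤ w x) (hw : Summable w) (Θ : X → d → ℝ)
    {f : X → ℂ} (hf : ∀ x, ‖f x‖ ≤ 1) {R τ : ℝ} (hτ : 0 ≤ τ)
    (h : dt M * ((τ * (th M⁻¹ 0 - 1) + bz d R * th M⁻¹ 0) * ∑' x, w x) <
      ‖∑' x, (w x : ℂ) * (f x * th M (Θ x)) - dt M * ∑' x, (w x : ℂ) * f x‖) :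
    ∃ m : d → ℤ, m ≠ 0 ∧ qf M⁻¹ (zc m) < R ∧
      τ * ∑' x, w x < ‖∑' x, (w x : ℂ) * (f x * ee (-(zc m ⬝ᵥ Θ x)))‖ := by
  by_contra a
  exact absurd h (not_lt.2 (master1 hM hw0 hw Θ hf hτ fun m h0 h1 =>
    not_lt.1 fun b => a ⟨m, h0, h1, b⟩))

/-- Cauchy-Schwarz for a weight -/
theorem wt_cs (hw0 : ∀ x, 0 ≤ w x) (hw : Summable w) {f g : X → ℂ} {B : ℝ} (hf : ∀ x, ‖f x‖ ≤ B)
    (hg : ∀ x, ‖g x‖ ≤ B) : ‖∑' x, (w x : ℂ) * (f x * g x)‖ ^ 2 ≤
      (∑' x, w x * ‖f x‖ ^ 2) * ∑' x, w x * ‖g x‖ ^ 2 := by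
  have sm : ∀ {u v : X → ℂ}, (∀ x, ‖u x‖ ≤ B) → (∀ x, ‖v x‖ ≤ B) →
      Summable fun x => w x * (‖u x‖ * ‖v x‖) := fun hu hv =>
    .of_nonneg_of_le (fun x => mul_nonneg (hw0 x) (by positivity))
      (fun x => mul_le_mul_of_nonneg_left
        (mul_le_mul (hu x) (hv x) (norm_nonneg _) ((norm_nonneg _).trans (hu x))) (hw0 x))
      (hw.mul_right (B * B))
  have h1 : ‖∑' x, (w x : ℂ) * (f x * g x)‖ ≤ ∑' x, w x * (‖f x‖ * ‖g x‖) :=
    tsum_of_norm_bounded (sm hf hg).hasSum fun x => by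
      rw [norm_mul, norm_mul, Complex.norm_real, Real.norm_of_nonneg (hw0 x)]
  have h2 : ∀ t : ℝ, 0 ≤ (∑' x, w x * ‖g x‖ ^ 2) * (t * t) +
      2 * (∑' x, w x * (‖f x‖ * ‖g x‖)) * t + ∑' x, w x * ‖f x‖ ^ 2 := fun t => by
    simp only [sq]
    refine hasSum_le (fun x => ?_) hasSum_zero ((((sm hg hg).hasSum.mul_right (t * t)).add
      (((sm hf hg).hasSum.mul_left 2).mul_right t)).add (sm hf hf).hasSum)
    nlinarith [mul_nonneg (hw0 x) (sq_nonneg (‖g x‖ * t + ‖f x‖))]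
  have h3 := discrim_le_zero h2
  rw [discrim] at h3
  nlinarith [norm_nonneg (∑' x, (w x : ℂ) * (f x * g x))]

/-- the fibre sums are close to the covolume in mean square: `MASTER+` for one level -/
theorem th_var (hM : M.PosDef) (hw0 : ∀ x, 0 ≤ w x) (hw : Summable w) (Θ : X → d → ℝ) {η : ℝ}
    (h1 : (1 - η) * (dt M * ∑' x, w x) ≤ ∑' x, w x * th M (Θ x))
    (h2 : ∑' x, w x * th M (Θ x) ^ 2 ≤ (1 + η) * (dt M ^ 2 * ∑' x, w x)) :
    ∑' x, w x * (th M (Θ x) - dt M) ^ 2 ≤ 3 * η * (dt M ^ 2 * ∑' x, w x) := by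
  have s1 : Summable fun x => w x * th M (Θ x) :=
    .of_nonneg_of_le (fun x => mul_nonneg (hw0 x) (th_nonneg _ _))
      (fun x => mul_le_mul_of_nonneg_left (th_le hM _) (hw0 x)) (hw.mul_right (th M 0))
  have s2 : Summable fun x => w x * th M (Θ x) ^ 2 :=
    .of_nonneg_of_le (fun x => mul_nonneg (hw0 x) (sq_nonneg _))
      (fun x => mul_le_mul_of_nonneg_left (pow_le_pow_left₀ (th_nonneg _ _) (th_le hM _) 2) (hw0 x))
      (hw.mul_right (th M 0 ^ 2))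
  have e : ∑' x, w x * (th M (Θ x) - dt M) ^ 2 = ∑' x, w x * th M (Θ x) ^ 2 -
      2 * dt M * ∑' x, w x * th M (Θ x) + dt M ^ 2 * ∑' x, w x := by
    rw [← ((s2.hasSum.sub (s1.hasSum.mul_left (2 * dt M))).add
      (hw.hasSum.mul_left (dt M ^ 2))).tsum_eq]
    exact tsum_congr fun x => by ring
  rw [e]
  nlinarith [mul_le_mul_of_nonneg_left h1 (dt_pos hM).le]

end Crest.Agent.N49.Po

end
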