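import Crest.Agent.PVc.R312.PoisAux0

/-!
# Row 49 (helper83): Gaussians on `ℤ^d`, Poisson summation for a positive definite form

`qf M x = xᵀ M x`, `gs M x = exp (-π xᵀ M x)`, `ee t = e(t)`, `zc n` the real point of `n : d → ℤ`.
-/

set_option autoImplicit false

open Matrix MeasureTheory
open scoped MatrixOrder

noncomputable section

namespace Crest.Agent.N49.Po

open R312.PZ

variable {d : Type} [Fintype d] {M : Matrix d d ℝ}

/-- the quadratic form -/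
def qf (M : Matrix d d ℝ) (x : d → ℝ) : ℝ := x ⬝ᵥ M *ᵥ x

/-- the Gaussian -/
def gs (M : Matrix d d ℝ) (x : d → ℝ) : ℝ := Real.exp (-(Real.pi * qf M x))

/-- `e(t)` -/
def ee (t : ℝ) : ℂ := Complex.exp (2 * Real.pi * Complex.I * t)

/-- integer points -/
def zc (n : d → ℤ) : d → ℝ := fun i => (n i : ℝ)

theorem ee_add (s t : ℝ) : ee (s + t) = ee s * ee t := by
  simp only [ee, ← Complex.exp_add]; push_cast; ring_nf

theorem ee_zero : ee 0 = 1 := by simp [ee]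

theorem norm_ee (t : ℝ) : ‖ee t‖ = 1 := by
  rw [ee, show 2 * (Real.pi : ℂ) * Complex.I * t = ((2 * Real.pi * t : ℝ) : ℂ) * Complex.I by
    push_cast; ring, Complex.norm_exp_ofReal_mul_I]

theorem ee_int (n : ℤ) : ee n = 1 := by
  rw [ee, mul_comm]; exact_mod_cast Complex.exp_int_mul_two_pi_mul_I n

theorem ee_re (t : ℝ) : (ee t).re = Real.cos (2 * Real.pi * t) := by
  rw [ee, show 2 * (Real.pi : ℂ) * Complex.I * t = ((2 * Real.pi * t : ℝ) : ℂ) * Complex.I by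
    push_cast; ring, Complex.exp_ofReal_mul_I_re]

theorem continuous_ee : Continuous ee := by unfold ee; fun_prop

omit [Fintype d] in
theorem zc_zero : zc (0 : d → ℤ) = 0 := by funext i; simp [zc]

omit [Fintype d] in
theorem zc_add (m n : d → ℤ) : zc (m + n) = zc m + zc n := by funext i; simp [zc]

omit [Fintype d] in
theorem zc_neg (n : d → ℤ) : zc (-n) = -zc n := by funext i; simp [zc]

omit [Fintype d] in
theorem zc_sub (m n : d → ℤ) : zc (m - n) = zc m - zc n := by funext i; simp [zc]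

theorem ee_zc (m n : d → ℤ) : ee (zc m ⬝ᵥ zc n) = 1 := by
  have : zc m ⬝ᵥ zc n = ((m ⬝ᵥ n : ℤ) : ℝ) := by simp [zc, dotProduct]
  rw [this, ee_int]

theorem gs_pos (M : Matrix d d ℝ) (x : d → ℝ) : 0 < gs M x := Real.exp_pos _

theorem qf_zero (M : Matrix d d ℝ) : qf M 0 = 0 := by simp [qf]

theorem gs_zero (M : Matrix d d ℝ) : gs M 0 = 1 := by simp [gs, qf_zero]

theorem qf_neg (M : Matrix d d ℝ) (x : d → ℝ) : qf M (-x) = qf M x := by simp [qf, mulVec_neg]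

theorem gs_neg (M : Matrix d d ℝ) (x : d → ℝ) : gs M (-x) = gs M x := by rw [gs, qf_neg, gs]

theorem gs_sub_comm (M : Matrix d d ℝ) (x y : d → ℝ) : gs M (x - y) = gs M (y - x) := by
  rw [← neg_sub, gs_neg]

theorem qf_smul (c : ℝ) (M : Matrix d d ℝ) (x : d → ℝ) : qf (c • M) x = c * qf M x := by
  simp [qf, smul_mulVec]

theorem qf_smul_right (c : ℝ) (M : Matrix d d ℝ) (x : d → ℝ) : qf M (c • x) = c ^ 2 * qf M x := by
  simp only [qf, mulVec_smul, dotProduct_smul, smul_dotProduct, smul_eq_mul]; ring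

theorem qf_add_left (M M' : Matrix d d ℝ) (x : d → ℝ) : qf (M + M') x = qf M x + qf M' x := by
  simp [qf, add_mulVec]

theorem gs_add_left (M M' : Matrix d d ℝ) (x : d → ℝ) : gs (M + M') x = gs M x * gs M' x := by
  rw [gs, gs, gs, qf_add_left, ← Real.exp_add]; ring_nf

/-- the parallelogram law -/
theorem qf_par (M : Matrix d d ℝ) (x y : d → ℝ) :
    qf M (x + y) + qf M (x - y) = 2 * qf M x + 2 * qf M y := by
  simp only [qf, mulVec_add, mulVec_sub, add_dotProduct, dotProduct_add, sub_dotProduct,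
    dotProduct_sub]
  ring

theorem qf_mul (A : Matrix d d ℝ) (x : d → ℝ) : qf (Aᵀ * A) x = ∑ i, (A *ᵥ x) i ^ 2 := by
  rw [qf, ← mulVec_mulVec, dotProduct_mulVec, vecMul_transpose]
  simp [dotProduct, sq]

theorem continuous_gs (M : Matrix d d ℝ) : Continuous (gs M) := by
  unfold gs qf; fun_prop

theorem qf_nonneg (hM : M.PosDef) (x : d → ℝ) : 0 ≤ qf M x := by
  simpa [qf] using hM.posSemidef.dotProduct_mulVec_nonneg x

theorem gs_le_one (hM : M.PosDef) (x : d → ℝ) : gs M x ≤ 1 :=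
  Real.exp_le_one_iff.2 (neg_nonpos.2 (mul_nonneg Real.pi_pos.le (qf_nonneg hM x)))

variable [DecidableEq d]

theorem exists_sqrt (hM : M.PosDef) : ∃ A : Matrix d d ℝ, A.det ≠ 0 ∧ M = Aᵀ * A := by
  obtain ⟨A, h⟩ := CStarAlgebra.nonneg_iff_eq_star_mul_self.1 hM.posSemidef.nonneg
  have h' : M = Aᵀ * A := by simpa [star_eq_conjTranspose] using h
  refine ⟨A, fun h0 => hM.det_pos.ne' ?_, h'⟩
  rw [h', det_mul, h0, mul_zero]

theorem exists_low (hM : M.PosDef) : ∃ c : ℝ, 0 < c ∧ ∀ x, c * ∑ i, x i ^ 2 ≤ qf M x := by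
  obtain ⟨A, hA, rfl⟩ := exists_sqrt hM
  obtain ⟨S, hS⟩ : ∃ S, S = ∑ i, ∑ j, A⁻¹ i j ^ 2 := ⟨_, rfl⟩
  have S0 : 0 ≤ S := by rw [hS]; positivity
  refine ⟨(S + 1)⁻¹, by positivity, fun x => ?_⟩
  have e : x = A⁻¹ *ᵥ (A *ᵥ x) := by
    rw [mulVec_mulVec, nonsing_inv_mul _ (Ne.isUnit hA), one_mulVec]
  have h : ∑ i, x i ^ 2 ≤ S * ∑ j, (A *ᵥ x) j ^ 2 := by
    rw [hS, Finset.sum_mul]
    refine Finset.sum_le_sum fun i _ => ?_
    rw [congrFun e i]
    exact Finset.sum_mul_sq_le_sq_mul_sq _ _ _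
  rw [qf_mul, inv_mul_le_iff₀ (by positivity)]
  have : 0 ≤ ∑ j, (A *ᵥ x) j ^ 2 := by positivity
  nlinarith

theorem exists_dec (hM : M.PosDef) (θ : d → ℝ) : ∃ C c : ℝ, 0 < c ∧
    ∀ x, gs M (x - θ) ≤ C * Real.exp (-c * ∑ i, x i ^ 2) := by
  obtain ⟨c, hc, h⟩ := exists_low hM
  refine ⟨Real.exp (Real.pi * qf M θ), Real.pi * c / 2, by positivity, fun x => ?_⟩
  rw [gs, ← Real.exp_add, Real.exp_le_exp]
  have h1 := qf_par M (x - θ) θ
  rw [sub_add_cancel] at h1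
  nlinarith [qf_nonneg hM (x - θ - θ), h x, Real.pi_pos]

theorem summable_gs (hM : M.PosDef) (θ : d → ℝ) : Summable fun n : d → ℤ => gs M (zc n - θ) := by
  obtain ⟨C, c, hc, h⟩ := exists_dec hM θ
  exact Summable.of_nonneg_of_le (fun _ => (gs_pos _ _).le) (fun n => h _)
    ((summable_pi hc).mul_left C)

theorem summable_gs_mul (hM : M.PosDef) (θ : d → ℝ) {f : (d → ℤ) → ℂ} {B : ℝ}
    (hf : ∀ n, ‖f n‖ ≤ B) : Summable fun n : d → ℤ => (gs M (zc n - θ) : ℂ) * f n := by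
  refine Summable.of_norm_bounded ((summable_gs hM θ).mul_right B) fun n => ?_
  rw [norm_mul, Complex.norm_real, Real.norm_of_nonneg (gs_pos _ _).le]
  exact mul_le_mul_of_nonneg_left (hf n) (gs_pos _ _).le

/-- the Fourier transform of a Gaussian -/
theorem integral_gs (hM : M.PosDef) (η : d → ℝ) :
    ∫ x : d → ℝ, (gs M x : ℂ) * ee (η ⬝ᵥ x) = ((√M.det)⁻¹ * gs M⁻¹ η : ℝ) := by
  obtain ⟨A, hA, rfl⟩ := exists_sqrt hM
  have hu := Ne.isUnit hA
  obtain ⟨w, hw⟩ : ∃ w, w = A⁻¹ᵀ *ᵥ η := ⟨_, rfl⟩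
  obtain ⟨F, hF⟩ : ∃ F : (d → ℝ) → ℂ, F = fun u => Complex.exp (-∑ i, (Real.pi : ℂ) * (u i : ℂ) ^ 2 +
    ∑ i, (2 * Real.pi * Complex.I * w i) * u i) := ⟨_, rfl⟩
  have h1 : ∀ x, (gs (Aᵀ * A) x : ℂ) * ee (η ⬝ᵥ x) = F (toLin' A x) := fun x => by
    have e : η ⬝ᵥ x = ∑ i, w i * (A *ᵥ x) i := by
      change _ = w ⬝ᵥ A *ᵥ x
      rw [hw, mulVec_transpose, ← dotProduct_mulVec, mulVec_mulVec, nonsing_inv_mul _ hu, one_mulVec]
    rw [hF, gs, qf_mul, ee, e, toLin'_apply, Complex.ofReal_exp, ← Complex.exp_add]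
    push_cast
    simp only [Finset.mul_sum, mul_assoc]
  have h2 : ∫ x, F (toLin' A x) = ∫ u, F u ∂(Measure.map (toLin' A) volume) :=
    (integral_map (LinearMap.continuous_of_finiteDimensional _).aemeasurable
      (by rw [hF]; exact (by fun_prop : Continuous _).aestronglyMeasurable)).symm
  have h3 : ∫ u, F u = gs (Aᵀ * A)⁻¹ η := by
    rw [hF, GaussianFourier.integral_cexp_neg_sum_mul_add (fun _ => by simpa using Real.pi_pos),
      Matrix.mul_inv_rev, ← transpose_nonsing_inv, gs]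
    have e := qf_mul A⁻¹ᵀ η
    rw [transpose_transpose, ← hw] at e
    have hπ : (Real.pi : ℂ) ≠ 0 := by exact_mod_cast Real.pi_pos.ne'
    rw [e, div_self hπ, Complex.one_cpow, Complex.ofReal_exp]
    simp only [one_mul, ← Complex.exp_sum]
    congr 1
    push_cast
    rw [Finset.mul_sum, ← Finset.sum_neg_distrib]
    refine Finset.sum_congr rfl fun i _ => ?_
    field_simp
    rw [Complex.I_sq]
    ring
  simp only [h1]
  rw [h2, Real.map_matrix_volume_pi_eq_smul_volume_pi hA, integral_smul_measure, h3,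
    ENNReal.toReal_ofReal (abs_nonneg _), det_mul, det_transpose, ← sq, Real.sqrt_sq_eq_abs, abs_inv]
  simp

/-- **Poisson summation** for shifted and modulated Gaussians -/
theorem poisson_gs (hM : M.PosDef) (θ ξ : d → ℝ) :
    ∑' n : d → ℤ, (gs M (zc n - θ) : ℂ) * ee (ξ ⬝ᵥ zc n) =
      ((√M.det)⁻¹ : ℝ) * ∑' m : d → ℤ, (gs M⁻¹ (zc m - ξ) : ℂ) * ee ((ξ - zc m) ⬝ᵥ θ) := by
  obtain ⟨C, c, hc, h⟩ := exists_dec hM θ
  have k : ∀ m : d → ℤ, ∫ x, ec (-m) x * ((gs M (x - θ) : ℂ) * ee (ξ ⬝ᵥ x)) =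
      ((√M.det)⁻¹ : ℝ) * ((gs M⁻¹ (zc m - ξ) : ℂ) * ee ((ξ - zc m) ⬝ᵥ θ)) := fun m => by
    have e : ∀ x : d → ℝ, ec (-m) (x + θ) * ((gs M (x + θ - θ) : ℂ) * ee (ξ ⬝ᵥ (x + θ))) =
        (gs M x : ℂ) * ee ((ξ - zc m) ⬝ᵥ x) * ee ((ξ - zc m) ⬝ᵥ θ) := fun x => by
      have : ec (-m) (x + θ) = ee (-zc m ⬝ᵥ (x + θ)) := by
        simp [ec, ee, zc, dotProduct]
      rw [this, add_sub_cancel_right, mul_left_comm, ← ee_add, mul_assoc, ← ee_add,
        ← dotProduct_add, ← add_dotProduct, neg_add_eq_sub]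
    rw [← integral_add_right_eq_self _ θ]
    simp only [e]
    rw [integral_mul_const, integral_gs hM, gs_sub_comm]
    push_cast
    ring
  have := poisson (f := fun x => (gs M (x - θ) : ℂ) * ee (ξ ⬝ᵥ x))
    ((Complex.continuous_ofReal.comp ((continuous_gs M).comp (by fun_prop))).mul
      (continuous_ee.comp (by fun_prop))) hc (C := C)
    (fun x => by
      rw [norm_mul, norm_ee, mul_one, Complex.norm_real, Real.norm_of_nonneg (gs_pos _ _).le]
      exact h x)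
    (by
      simp only [k]
      exact (summable_gs_mul hM.inv ξ fun m => (norm_ee _).le).mul_left _)
  simp only [k] at this
  rw [← tsum_mul_left]
  exact this

end Crest.Agent.N49.Po

end
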